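import Vale.Agent.P273.H811.Fib

/-!
Tails at infinity: a form on `E × (ι → ℂ)` which extends in the charts `w_j = 1 / x_j` satisfies the
domination hypotheses of the fibre integral theorem.
-/

open MeasureTheory Set Topology Filter

noncomputable section

namespace Vale.Agent.P273.H811

set_option linter.unusedSectionVars false

variable {E W ι : Type*} [NormedAddCommGroup E] [NormedSpace ℝ E]
  [NormedAddCommGroup W] [NormedSpace ℝ W] [Fintype ι] [DecidableEq ι] {N n k : ℕ}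

local instance instCE' : ContinuousENorm (E →L[ℝ] (E [⋀^Fin k]→L[ℝ] W)) :=
  @SeminormedAddGroup.toContinuousENorm (E →L[ℝ] (E [⋀^Fin k]→L[ℝ] W)) _

/-- The inversion of the coordinates in `S`. -/
def inv (S : Finset ι) (x : ι → ℂ) : ι → ℂ := fun j => if j ∈ S then (x j)⁻¹ else x j

/-- The derivative of `inv S`. -/
def dinv (S : Finset ι) (x : ι → ℂ) : (ι → ℂ) →L[ℝ] (ι → ℂ) :=
  ContinuousLinearMap.pi fun j =>
    ((if j ∈ S then -((x j) ^ 2)⁻¹ else 1 : ℂ) • (ContinuousLinearMap.proj (R := ℂ) j :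
      (ι → ℂ) →L[ℂ] ℂ)).restrictScalars ℝ

theorem dinv_apply (S : Finset ι) (x y : ι → ℂ) (j : ι) :
    dinv S x y j = (if j ∈ S then -((x j) ^ 2)⁻¹ else 1) * y j := rfl

theorem hasFDerivAt_inv (S : Finset ι) (x : ι → ℂ) (hx : ∀ j ∈ S, x j ≠ 0) :
    HasFDerivAt (inv S) (dinv S x) x := by
  unfold dinv
  rw [hasFDerivAt_pi]
  intro j
  have h1 : HasFDerivAt (fun x : ι → ℂ => x j) (ContinuousLinearMap.proj (R := ℂ) j :
      (ι → ℂ) →L[ℂ] ℂ) x := hasFDerivAt_apply j x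
  apply HasFDerivAt.restrictScalars
  by_cases hj : j ∈ S
  · have h2 : HasDerivAt (fun z : ℂ => z⁻¹) (-((x j) ^ 2)⁻¹) (x j) := hasDerivAt_inv (hx j hj)
    have h3 := h2.comp_hasFDerivAt x h1
    have h4 : (fun x : ι → ℂ => inv S x j) = fun x => (x j)⁻¹ := by
      funext x
      simp [inv, hj]
    rw [h4]
    simp only [hj, if_true]
    exact h3
  · have h4 : (fun x : ι → ℂ => inv S x j) = fun x => x j := by
      funext x
      simp [inv, hj]
    rw [h4]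
    simp only [hj, if_false, one_smul]
    exact h1

/-- The derivative of `(b, x) ↦ (b, inv S x)`. -/
def Dinv (S : Finset ι) (x : ι → ℂ) : E × (ι → ℂ) →L[ℝ] E × (ι → ℂ) :=
  (ContinuousLinearMap.id ℝ E).prodMap (dinv S x)

theorem Dinv_apply (S : Finset ι) (x : ι → ℂ) (u : E × (ι → ℂ)) :
    Dinv S x u = (u.1, dinv S x u.2) := rfl

theorem hasFDerivAt_Inv (S : Finset ι) (b : E) (x : ι → ℂ) (hx : ∀ j ∈ S, x j ≠ 0) :
    HasFDerivAt (fun p : E × (ι → ℂ) => (p.1, inv S p.2)) (Dinv S x) (b, x) := by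
  have h1 : HasFDerivAt (fun p : E × (ι → ℂ) => inv S p.2)
      ((dinv S x).comp (ContinuousLinearMap.snd ℝ E (ι → ℂ))) (b, x) :=
    HasFDerivAt.comp (g := inv S) (f := (Prod.snd : E × (ι → ℂ) → (ι → ℂ))) (b, x)
      (hasFDerivAt_inv S x hx) hasFDerivAt_snd
  exact hasFDerivAt_fst.prodMk h1

/-- The coordinates near infinity. -/
def far (x : ι → ℂ) : Finset ι := Finset.univ.filter fun j => 1 < ‖x j‖

theorem mem_far (x : ι → ℂ) (j : ι) : j ∈ far x ↔ 1 < ‖x j‖ := by simp [far]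

theorem far_ne (x : ι → ℂ) (j : ι) (hj : j ∈ far x) : x j ≠ 0 := by
  rw [mem_far] at hj
  intro h
  rw [h, norm_zero] at hj
  linarith

theorem norm_inv_far (x : ι → ℂ) : ‖inv (far x) x‖ ≤ 1 := by
  rw [pi_norm_le_iff_of_nonneg zero_le_one]
  intro j
  unfold inv
  by_cases hj : j ∈ far x
  · rw [if_pos hj, norm_inv]
    rw [mem_far] at hj
    exact inv_le_one_of_one_le₀ hj.le
  · rw [if_neg hj]
    rw [mem_far, not_lt] at hj
    exact hj

/-- The size of `Dinv (far x) x` on vertical vectors of the coordinate `j`. -/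
theorem norm_Dinv_single (x : ι → ℂ) (j : ι) (c : ℂ) :
    ‖(Dinv (far x) x (0, Pi.single j c) : E × (ι → ℂ))‖ ≤ 4 * ‖c‖ * ((1 + ‖x j‖) ^ 2)⁻¹ := by
  have h0 : ∀ i, dinv (far x) x (Pi.single j c) i =
      (Pi.single j ((if j ∈ far x then -((x j) ^ 2)⁻¹ else 1) * c) : ι → ℂ) i := by
    intro i
    rw [dinv_apply]
    by_cases hi : i = j
    · subst hi
      simp
    · simp [Pi.single_eq_of_ne hi]
  have h1 : dinv (far x) x (Pi.single j c) =
      Pi.single j ((if j ∈ far x then -((x j) ^ 2)⁻¹ else 1) * c) := funext h0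
  rw [Dinv_apply, Prod.norm_def]
  simp only [norm_zero]
  rw [max_eq_right (norm_nonneg _), h1, Pi.norm_single, norm_mul]
  have hpos : 0 < (1 + ‖x j‖) ^ 2 := by positivity
  have hle : ‖(if j ∈ far x then -((x j) ^ 2)⁻¹ else 1 : ℂ)‖ ≤ 4 * ((1 + ‖x j‖) ^ 2)⁻¹ := by
    by_cases hj : j ∈ far x
    · rw [if_pos hj, norm_neg, norm_inv, norm_pow]
      rw [mem_far] at hj
      have h2 : 0 < ‖x j‖ ^ 2 := by positivity
      rw [← div_eq_mul_inv, inv_eq_one_div, div_le_div_iff₀ h2 hpos]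
      nlinarith [norm_nonneg (x j)]
    · rw [if_neg hj, norm_one]
      rw [mem_far, not_lt] at hj
      rw [← div_eq_mul_inv, le_div_iff₀ hpos]
      nlinarith [norm_nonneg (x j)]
  calc ‖(if j ∈ far x then -((x j) ^ 2)⁻¹ else 1 : ℂ)‖ * ‖c‖
      ≤ (4 * ((1 + ‖x j‖) ^ 2)⁻¹) * ‖c‖ := by gcongr
    _ = 4 * ‖c‖ * ((1 + ‖x j‖) ^ 2)⁻¹ := by ring

theorem norm_Dinv_hor (x : ι → ℂ) (v : E) :
    ‖(Dinv (far x) x (v, 0) : E × (ι → ℂ))‖ = ‖v‖ := by
  rw [Dinv_apply, Prod.norm_def]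
  simp

/-- The form `G` extends, with its first derivatives, in the charts `w_j = 1 / x_j`. -/
def Ext (O : Set E) (G : E × (ι → ℂ) → (E × (ι → ℂ)) [⋀^Fin N]→L[ℝ] W)
    (GS : Finset ι → E × (ι → ℂ) → (E × (ι → ℂ)) [⋀^Fin N]→L[ℝ] W) : Prop :=
  (∀ S, ∀ b ∈ O, ∀ w : ι → ℂ, ‖w‖ ≤ 1 → ContDiffAt ℝ 1 (GS S) (b, w)) ∧
  ∀ S, ∀ b ∈ O, ∀ x : ι → ℂ, (∀ j ∈ S, x j ≠ 0) →
    G (b, x) = (GS S (b, inv S x)).compContinuousLinearMap (Dinv S x)

variable {O : Set E} {G : E × (ι → ℂ) → (E × (ι → ℂ)) [⋀^Fin N]→L[ℝ] W}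
  {GS : Finset ι → E × (ι → ℂ) → (E × (ι → ℂ)) [⋀^Fin N]→L[ℝ] W}

/-- A locally uniform bound near a compact set. -/
theorem nhds_bound {A : Type*} [SeminormedAddCommGroup A] (H : E × (ι → ℂ) → A) (b : E)
    (hH : ∀ w : ι → ℂ, ‖w‖ ≤ 1 → ContinuousAt H (b, w)) :
    ∃ V ∈ 𝓝 b, ∃ C : ℝ, ∀ b' ∈ V, ∀ w : ι → ℂ, ‖w‖ ≤ 1 → ‖H (b', w)‖ ≤ C := by
  have hK : IsCompact (Metric.closedBall (0 : ι → ℂ) 1) := isCompact_closedBall 0 1
  have h1 : ∀ w ∈ Metric.closedBall (0 : ι → ℂ) 1, ∃ C : ℝ, ∀ᶠ p in 𝓝 b ×ˢ 𝓝 w, ‖H p‖ ≤ C := by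
    intro w hw
    rw [mem_closedBall_zero_iff] at hw
    refine ⟨‖H (b, w)‖ + 1, ?_⟩
    have h2 := (hH w hw).norm
    rw [← nhds_prod_eq]
    exact h2.eventually (ge_mem_nhds (lt_add_one _)) 
  choose! C hC using h1
  have h3 : ∀ w ∈ Metric.closedBall (0 : ι → ℂ) 1, ∃ V ∈ 𝓝 b, ∃ U ∈ 𝓝 w,
      ∀ b' ∈ V, ∀ w' ∈ U, ‖H (b', w')‖ ≤ C w := by
    intro w hw
    obtain ⟨V, hV, U, hU, h⟩ := Filter.mem_prod_iff.1 (hC w hw)
    exact ⟨V, hV, U, hU, fun b' hb' w' hw' => h (Set.mk_mem_prod hb' hw')⟩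
  choose! V hV U hU hVU using h3
  obtain ⟨t, ht, hcov⟩ := hK.elim_nhds_subcover U hU
  refine ⟨⋂ w ∈ t, V w, (Filter.biInter_finset_mem t).2 fun w hw => hV w (ht w hw),
    ∑ w ∈ t, |C w|, ?_⟩
  intro b' hb' w hw
  have h4 : w ∈ ⋃ x ∈ t, U x := hcov (mem_closedBall_zero_iff.2 hw)
  simp only [Set.mem_iUnion] at h4
  obtain ⟨w0, hw0, hw1⟩ := h4
  have h5 : b' ∈ V w0 := by
    simp only [Set.mem_iInter] at hb'
    exact hb' w0 hw0
  calc ‖H (b', w)‖ ≤ C w0 := hVU w0 (ht w0 hw0) b' h5 w hw1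
    _ ≤ |C w0| := le_abs_self _
    _ ≤ ∑ w ∈ t, |C w| := Finset.single_le_sum (f := fun w => |C w|)
        (fun _ _ => abs_nonneg _) hw0

/-- The base derivative commutes with the pull-back. -/
theorem fderiv_Ext (hO : IsOpen O) (hG : ∀ b ∈ O, ∀ x, ContDiffAt ℝ 1 G (b, x))
    (h : Ext O G GS) {b : E} (hb : b ∈ O) (x : ι → ℂ) (v : E) (u : Fin N → E × (ι → ℂ)) :
    fderiv ℝ G (b, x) (v, 0) u = fderiv ℝ (GS (far x)) (b, inv (far x) x) (v, 0)
      (fun i => Dinv (far x) x (u i)) := by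
  have hx : ∀ j ∈ far x, x j ≠ 0 := fun j hj => far_ne x j hj
  have hA0 : HasFDerivAt G (fderiv ℝ G (b, x)) (b, x) :=
    ((hG b hb x).differentiableAt (by norm_num)).hasFDerivAt
  have hB0 : HasFDerivAt (GS (far x)) (fderiv ℝ (GS (far x)) (b, inv (far x) x))
      (b, inv (far x) x) :=
    ((h.1 (far x) b hb _ (norm_inv_far x)).differentiableAt (by norm_num)).hasFDerivAt
  have hl : ∀ y : ι → ℂ, HasFDerivAt (fun b : E => (b, y))
      (ContinuousLinearMap.inl ℝ E (ι → ℂ)) b := fun y =>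
    (hasFDerivAt_id b).prodMk (hasFDerivAt_const _ b)
  have hA := (ContinuousAlternatingMap.apply ℝ (E × (ι → ℂ)) W u).hasFDerivAt.comp b
    (hA0.comp b (hl x))
  have hB := (ContinuousAlternatingMap.apply ℝ (E × (ι → ℂ)) W
    (fun i => Dinv (far x) x (u i))).hasFDerivAt.comp b (hB0.comp b (hl (inv (far x) x)))
  have hE : (⇑(ContinuousAlternatingMap.apply ℝ (E × (ι → ℂ)) W u) ∘ G ∘ fun b : E => (b, x))
      =ᶠ[𝓝 b] (⇑(ContinuousAlternatingMap.apply ℝ (E × (ι → ℂ)) W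
        (fun i => Dinv (far x) x (u i))) ∘ GS (far x) ∘ fun b : E => (b, inv (far x) x)) := by
    filter_upwards [hO.mem_nhds hb] with b' hb'
    show G (b', x) u = GS (far x) (b', inv (far x) x) (fun i => Dinv (far x) x (u i))
    rw [h.2 (far x) b' hb' x hx]
    rfl
  have hU := hA.unique (hB.congr_of_eventuallyEq hE)
  have hv := congrArg (fun L : E →L[ℝ] W => L v) hU
  exact hv

/-- **The bounds at infinity**. -/
theorem tail_bound (hO : IsOpen O) (hG : ∀ b ∈ O, ∀ x, ContDiffAt ℝ 1 G (b, x))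
    (h : Ext O G GS) (b : E) (hb : b ∈ O) :
    ∃ V ∈ 𝓝 b, V ⊆ O ∧ ∃ C : ℝ, 0 ≤ C ∧ ∀ b' ∈ V, ∀ x : ι → ℂ, ∀ u : Fin N → E × (ι → ℂ),
      ‖G (b', x) u‖ ≤ C * ∏ i, ‖Dinv (far x) x (u i)‖ ∧
      ∀ v : E, ‖fderiv ℝ G (b', x) (v, 0) u‖ ≤ C * ‖v‖ * ∏ i, ‖Dinv (far x) x (u i)‖ := by
  have h1 : ∀ S, ∃ V ∈ 𝓝 b, ∃ C : ℝ, ∀ b' ∈ V, ∀ w : ι → ℂ, ‖w‖ ≤ 1 → ‖GS S (b', w)‖ ≤ C :=
    fun S => nhds_bound (GS S) b fun w hw => (h.1 S b hb w hw).continuousAt
  have h2 : ∀ S, ∃ V ∈ 𝓝 b, ∃ C : ℝ, ∀ b' ∈ V, ∀ w : ι → ℂ, ‖w‖ ≤ 1 →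
      ‖fderiv ℝ (GS S) (b', w)‖ ≤ C :=
    fun S => nhds_bound (fderiv ℝ (GS S)) b fun w hw =>
      ((h.1 S b hb w hw).fderiv_right (m := 0) (by simp)).continuousAt
  choose V1 hV1 C1 hC1 using h1
  choose V2 hV2 C2 hC2 using h2
  have hK0 : 0 ≤ ∑ S, (|C1 S| + |C2 S|) := Finset.sum_nonneg fun _ _ => by positivity
  refine ⟨O ∩ ((⋂ S ∈ (Finset.univ : Finset (Finset ι)), V1 S) ∩
    ⋂ S ∈ (Finset.univ : Finset (Finset ι)), V2 S), ?_, inter_subset_left,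
    ∑ S, (|C1 S| + |C2 S|), hK0, ?_⟩
  · exact Filter.inter_mem (hO.mem_nhds hb) (Filter.inter_mem
      ((Filter.biInter_finset_mem _).2 fun S _ => hV1 S)
      ((Filter.biInter_finset_mem _).2 fun S _ => hV2 S))
  intro b' hb' x u
  have hbO : b' ∈ O := hb'.1
  have hb1 : ∀ S, b' ∈ V1 S := by
    intro S
    have := hb'.2.1
    simp only [Set.mem_iInter] at this
    exact this S (Finset.mem_univ _)
  have hb2 : ∀ S, b' ∈ V2 S := by
    intro S
    have := hb'.2.2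
    simp only [Set.mem_iInter] at this
    exact this S (Finset.mem_univ _)
  have hC : ∀ S, |C1 S| + |C2 S| ≤ ∑ S, (|C1 S| + |C2 S|) := fun S =>
    Finset.single_le_sum (f := fun S => |C1 S| + |C2 S|) (fun _ _ => by positivity)
      (Finset.mem_univ S)
  have hx : ∀ j ∈ far x, x j ≠ 0 := fun j hj => far_ne x j hj
  have hprod : 0 ≤ ∏ i, ‖(Dinv (far x) x (u i) : E × (ι → ℂ))‖ :=
    Finset.prod_nonneg fun _ _ => norm_nonneg _
  generalize ∑ S, (|C1 S| + |C2 S|) = K at hK0 hC ⊢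
  have e1 : ‖GS (far x) (b', inv (far x) x)‖ ≤ K := by
    refine (hC1 (far x) b' (hb1 _) _ (norm_inv_far x)).trans ?_
    have := hC (far x)
    have := le_abs_self (C1 (far x))
    have := abs_nonneg (C2 (far x))
    linarith
  have e2 : ‖fderiv ℝ (GS (far x)) (b', inv (far x) x)‖ ≤ K := by
    refine (hC2 (far x) b' (hb2 _) _ (norm_inv_far x)).trans ?_
    have := hC (far x)
    have := le_abs_self (C2 (far x))
    have := abs_nonneg (C1 (far x))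
    linarith
  constructor
  · rw [h.2 (far x) b' hbO x hx]
    exact (ContinuousAlternatingMap.le_opNorm (GS (far x) (b', inv (far x) x))
      (fun i => Dinv (far x) x (u i))).trans (mul_le_mul_of_nonneg_right e1 hprod)
  · intro v
    rw [fderiv_Ext hO hG h hbO x v u]
    have e3 : ‖fderiv ℝ (GS (far x)) (b', inv (far x) x) (v, 0)‖ ≤ K * ‖v‖ := by
      refine ((fderiv ℝ (GS (far x)) (b', inv (far x) x)).le_opNorm (v, 0)).trans ?_
      have hv : ‖((v, 0) : E × (ι → ℂ))‖ = ‖v‖ := by simp [Prod.norm_def]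
      rw [hv]
      exact mul_le_mul_of_nonneg_right e2 (norm_nonneg _)
    exact (ContinuousAlternatingMap.le_opNorm _ (fun i => Dinv (far x) x (u i))).trans
      (mul_le_mul_of_nonneg_right e3 hprod)

/-! ### The majorants -/

/-- The majorant `∏ (1 + ‖x_j‖)^(-4)`. -/
def wt (x : ι → ℂ) : ℝ := ∏ j, (((1 + ‖x j‖) ^ 2)⁻¹) ^ 2

theorem wt_nonneg (x : ι → ℂ) : 0 ≤ wt x := Finset.prod_nonneg fun _ _ => by positivity

theorem integrable_one_add (a : ℕ) (ha : 3 ≤ a) :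
    Integrable (fun z : ℂ => ((1 + ‖z‖) ^ a)⁻¹) := by
  have h : Integrable (fun z : ℂ => (1 + ‖z‖) ^ (-(a : ℝ))) := by
    apply integrable_one_add_norm
    rw [Complex.finrank_real_complex]
    have : (3 : ℝ) ≤ a := by exact_mod_cast ha
    push_cast
    linarith
  refine h.congr (Eventually.of_forall fun z => ?_)
  have h0 : (0 : ℝ) ≤ 1 + ‖z‖ := by positivity
  show (1 + ‖z‖) ^ (-(a : ℝ)) = ((1 + ‖z‖) ^ a)⁻¹
  rw [Real.rpow_neg h0, Real.rpow_natCast]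

theorem integrable_wt : Integrable (wt : (ι → ℂ) → ℝ) := by
  unfold wt
  apply Integrable.fintype_prod (f := fun _ z => (((1 + ‖z‖) ^ 2)⁻¹) ^ 2)
  intro j
  refine (integrable_one_add 4 (by norm_num)).congr (Eventually.of_forall fun z => ?_)
  show ((1 + ‖z‖) ^ 4)⁻¹ = (((1 + ‖z‖) ^ 2)⁻¹) ^ 2
  rw [inv_pow, ← pow_mul]

theorem integrable_wt_mul (q : ι) :
    Integrable (fun x : ι → ℂ => wt x * (1 + ‖x q‖)) := by
  have h1 : ∀ x : ι → ℂ, wt x * (1 + ‖x q‖) = ∏ j, (if j = q then fun z : ℂ =>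
      ((1 + ‖z‖) ^ 3)⁻¹ else fun z : ℂ => (((1 + ‖z‖) ^ 2)⁻¹) ^ 2) (x j) := by
    intro x
    unfold wt
    have h2 : (1 + ‖x q‖) = ∏ j, if j = q then 1 + ‖x j‖ else 1 := by
      rw [Finset.prod_ite_eq' Finset.univ q (fun j => 1 + ‖x j‖)]
      simp
    rw [h2, ← Finset.prod_mul_distrib]
    apply Finset.prod_congr rfl
    intro j _
    by_cases hj : j = q
    · simp only [hj, if_true]
      have h0 : (1 + ‖x q‖) ≠ 0 := by positivity
      field_simp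
    · simp only [hj, if_false, mul_one]
  simp_rw [h1]
  apply Integrable.fintype_prod (f := fun j => if j = q then fun z : ℂ =>
      ((1 + ‖z‖) ^ 3)⁻¹ else fun z : ℂ => (((1 + ‖z‖) ^ 2)⁻¹) ^ 2)
  intro j
  by_cases hj : j = q
  · simp only [hj, if_true]
    exact integrable_one_add 3 le_rfl
  · simp only [hj, if_false]
    refine (integrable_one_add 4 (by norm_num)).congr (Eventually.of_forall fun z => ?_)
    show ((1 + ‖z‖) ^ 4)⁻¹ = (((1 + ‖z‖) ^ 2)⁻¹) ^ 2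
    rw [inv_pow, ← pow_mul]

/-- Each coordinate occurs twice. -/
theorem prod_fib {p : Fin n → ι} (hp : ∀ j, (Finset.univ.filter fun i => p i = j).card = 2)
    (x : ι → ℂ) : ∏ i, ((1 + ‖x (p i)‖) ^ 2)⁻¹ = wt x := by
  unfold wt
  rw [← Finset.prod_fiberwise Finset.univ p fun i => ((1 + ‖x (p i)‖) ^ 2)⁻¹]
  apply Finset.prod_congr rfl
  intro j _
  rw [Finset.prod_congr rfl (g := fun _ => ((1 + ‖x j‖) ^ 2)⁻¹), Finset.prod_const, hp j]
  intro i hi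
  rw [(Finset.mem_filter.1 hi).2]

/-- The vertical vectors. -/
def ver (p : Fin n → ι) (c : Fin n → ℂ) (i : Fin n) : ι → ℂ := Pi.single (p i) (c i)

/-- The bound for one vector of `vec`. -/
def bd (p : Fin n → ι) (c : Fin n → ℂ) (x : ι → ℂ) (v : Fin k → E) : Fin (n + k) → ℝ :=
  Fin.append (fun i => 4 * ‖c i‖ * ((1 + ‖x (p i)‖) ^ 2)⁻¹) (fun i => ‖v i‖)

theorem bd_nonneg (p : Fin n → ι) (c : Fin n → ℂ) (x : ι → ℂ) (v : Fin k → E)
    (l : Fin (n + k)) : 0 ≤ bd p c x v l := by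
  refine Fin.addCases (fun a => ?_) (fun a => ?_) l
  · simp only [bd, Fin.append_left]
    positivity
  · simp only [bd, Fin.append_right]
    positivity

theorem le_bd (p : Fin n → ι) (c : Fin n → ℂ) (x : ι → ℂ) (v : Fin k → E) (l : Fin (n + k)) :
    ‖Dinv (far x) x (vec (ver p c) v l)‖ ≤ bd p c x v l := by
  refine Fin.addCases (fun a => ?_) (fun a => ?_) l
  · rw [vec_castAdd]
    simp only [bd, Fin.append_left, ver]
    exact norm_Dinv_single x (p a) (c a)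
  · rw [vec_natAdd]
    simp only [bd, Fin.append_right]
    exact (norm_Dinv_hor x (v a)).le

theorem prod_bd {p : Fin n → ι} (hp : ∀ j, (Finset.univ.filter fun i => p i = j).card = 2)
    (c : Fin n → ℂ) (x : ι → ℂ) (v : Fin k → E) :
    ∏ l, bd p c x v l = (∏ i, 4 * ‖c i‖) * wt x * ∏ i, ‖v i‖ := by
  rw [Fin.prod_univ_add]
  simp only [bd, Fin.append_left, Fin.append_right]
  rw [Finset.prod_mul_distrib, prod_fib hp]

variable {G' : E × (ι → ℂ) → (E × (ι → ℂ)) [⋀^Fin (n + k)]→L[ℝ] W}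
  {GS' : Finset ι → E × (ι → ℂ) → (E × (ι → ℂ)) [⋀^Fin (n + k)]→L[ℝ] W}

/-- **Domination from the extension to infinity.** -/
theorem Ext.dom (hO : IsOpen O) (hG : ∀ b ∈ O, ∀ x, ContDiffAt ℝ 1 G' (b, x))
    (h : Ext O G' GS') {p : Fin n → ι}
    (hp : ∀ j, (Finset.univ.filter fun i => p i = j).card = 2) (c : Fin n → ℂ) :
    Dom volume (ver p c) G' O := by
  intro b hb
  obtain ⟨V, hV, hVO, C, hC, hbound⟩ := tail_bound hO hG h b hb
  refine ⟨V, hV, fun x => C * ((∏ i, 4 * ‖c i‖) * wt x), (integrable_wt.const_mul _).const_mul _,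
    hVO, ?_⟩
  intro b' hb' x
  have h1 : ∀ v : Fin k → E, ∏ l, ‖Dinv (far x) x (vec (ver p c) v l)‖ ≤
      (∏ i, 4 * ‖c i‖) * wt x * ∏ i, ‖v i‖ := by
    intro v
    rw [← prod_bd hp c x v]
    exact Finset.prod_le_prod (fun _ _ => norm_nonneg _) fun l _ => le_bd p c x v l
  have hK : 0 ≤ C * ((∏ i, 4 * ‖c i‖) * wt x) := by
    have := wt_nonneg x
    positivity
  constructor
  · apply ContinuousAlternatingMap.opNorm_le_bound _ hK
    intro v
    rw [fixA_apply]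
    calc ‖G' (b', x) (vec (ver p c) v)‖ ≤ C * ∏ l, ‖Dinv (far x) x (vec (ver p c) v l)‖ :=
          (hbound b' hb' x _).1
      _ ≤ C * ((∏ i, 4 * ‖c i‖) * wt x * ∏ i, ‖v i‖) := by gcongr; exact h1 v
      _ = C * ((∏ i, 4 * ‖c i‖) * wt x) * ∏ i, ‖v i‖ := by ring
  · apply ContinuousLinearMap.opNorm_le_bound _ hK
    intro u
    apply ContinuousAlternatingMap.opNorm_le_bound _ (mul_nonneg hK (norm_nonneg u))
    intro v
    rw [der_apply]
    calc ‖fderiv ℝ G' (b', x) (u, 0) (vec (ver p c) v)‖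
        ≤ C * ‖u‖ * ∏ l, ‖Dinv (far x) x (vec (ver p c) v l)‖ := (hbound b' hb' x _).2 u
      _ ≤ C * ‖u‖ * ((∏ i, 4 * ‖c i‖) * wt x * ∏ i, ‖v i‖) := by gcongr; exact h1 v
      _ = C * ((∏ i, 4 * ‖c i‖) * wt x) * ‖u‖ * ∏ i, ‖v i‖ := by ring

/-- **The components with one vertical vector missing.** -/
theorem Ext.int_drp (hO : IsOpen O) (hG : ∀ b ∈ O, ∀ x, ContDiffAt ℝ 1 G' (b, x))
    (h : Ext O G' GS') {p : Fin n → ι}
    (hp : ∀ j, (Finset.univ.filter fun i => p i = j).card = 2) {c : Fin n → ℂ}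
    (hc : ∀ i, c i ≠ 0) {b : E} (hb : b ∈ O) (v : Fin (k + 1) → E) (q : Fin n) :
    Integrable (fun x => (1 + ‖x‖)⁻¹ * ‖G' (b, x) (drp (ver p c) v q)‖) := by
  obtain ⟨V, hV, hVO, C, hC, hbound⟩ := tail_bound hO hG h b hb
  have hcont : Continuous fun x => (1 + ‖x‖)⁻¹ * ‖G' (b, x) (drp (ver p c) v q)‖ := by
    have h1 : Continuous fun x => G' (b, x) (drp (ver p c) v q) :=
      (ContinuousAlternatingMap.apply ℝ (E × (ι → ℂ)) W (drp (ver p c) v q)).continuous.comp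
        (slice_contDiff hG hb).continuous
    apply Continuous.mul _ h1.norm
    apply Continuous.inv₀ (by fun_prop)
    intro x
    positivity
  have hcq : 0 < 4 * ‖c q‖ := by
    have := norm_pos_iff.2 (hc q)
    positivity
  have hmaj : Integrable (fun x : ι → ℂ => C * ((∏ i, 4 * ‖c i‖) * (∏ i, ‖v i‖) *
      (4 * ‖c q‖)⁻¹) * (wt x * (1 + ‖x (p q)‖))) := (integrable_wt_mul (p q)).const_mul _
  refine hmaj.mono' hcont.aestronglyMeasurable (Eventually.of_forall fun x => ?_)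
  have hb' := (hbound b (mem_of_mem_nhds hV) x (drp (ver p c) v q)).1
  -- the product without the factor `q`
  have h2 : ∏ l : Fin (n + k), ‖Dinv (far x) x (drp (ver p c) v q l)‖ ≤
      ∏ l : Fin (n + k), bd (k := k + 1) p c x v
        ((Fin.castAdd (k + 1) q : Fin (n + (k + 1))).succAbove (n := n + k) l) := by
    apply Finset.prod_le_prod (fun _ _ => norm_nonneg _)
    intro l _
    exact le_bd (k := k + 1) p c x v _
  have h3 : bd (k := k + 1) p c x v (Fin.castAdd (k + 1) q) *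
      ∏ l : Fin (n + k), bd (k := k + 1) p c x v
        ((Fin.castAdd (k + 1) q : Fin (n + (k + 1))).succAbove (n := n + k) l) =
      (∏ i, 4 * ‖c i‖) * wt x * ∏ i, ‖v i‖ := by
    rw [← prod_bd (k := k + 1) hp c x v]
    exact (Fin.prod_univ_succAbove (n := n + k) (bd (k := k + 1) p c x v)
      (Fin.castAdd (k + 1) q)).symm
  have h4 : bd (k := k + 1) p c x v (Fin.castAdd (k + 1) q) =
      4 * ‖c q‖ * ((1 + ‖x (p q)‖) ^ 2)⁻¹ := by simp [bd]
  have hx : 0 < 1 + ‖x (p q)‖ := by positivity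
  have h5 : ∏ l : Fin (n + k), bd (k := k + 1) p c x v
        ((Fin.castAdd (k + 1) q : Fin (n + (k + 1))).succAbove (n := n + k) l) =
      (∏ i, 4 * ‖c i‖) * (∏ i, ‖v i‖) * (4 * ‖c q‖)⁻¹ * (wt x * (1 + ‖x (p q)‖) ^ 2) := by
    rw [h4] at h3
    have alg : ∀ s t P A B w : ℝ, 0 < s → 0 < t → s * t⁻¹ * P = A * w * B →
        P = A * B * s⁻¹ * (w * t) := by
      intro s t P A B w hs ht h
      have h7 : P = (s * t⁻¹)⁻¹ * (s * t⁻¹ * P) := by
        rw [← mul_assoc, inv_mul_cancel₀ (by positivity), one_mul]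
      rw [h7, h, mul_inv, inv_inv]
      ring
    exact alg _ _ _ _ _ _ hcq (by positivity) h3
  have h6 : (1 + ‖x‖)⁻¹ ≤ (1 + ‖x (p q)‖)⁻¹ := by
    apply inv_anti₀ hx
    have := norm_le_pi_norm x (p q)
    linarith
  have hw := wt_nonneg x
  have hA : 0 ≤ (∏ i, 4 * ‖c i‖) * (∏ i, ‖v i‖) * (4 * ‖c q‖)⁻¹ := by positivity
  rw [Real.norm_of_nonneg (by positivity)]
  calc (1 + ‖x‖)⁻¹ * ‖G' (b, x) (drp (ver p c) v q)‖
      ≤ (1 + ‖x (p q)‖)⁻¹ * (C * ((∏ i, 4 * ‖c i‖) * (∏ i, ‖v i‖) * (4 * ‖c q‖)⁻¹ *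
          (wt x * (1 + ‖x (p q)‖) ^ 2))) := by
        apply mul_le_mul h6 _ (norm_nonneg _) (by positivity)
        refine hb'.trans ?_
        rw [← h5]
        exact mul_le_mul_of_nonneg_left h2 hC
    _ = C * ((∏ i, 4 * ‖c i‖) * (∏ i, ‖v i‖) * (4 * ‖c q‖)⁻¹) *
          (wt x * (1 + ‖x (p q)‖)) := by
        field_simp

/-- **The fibre integral over `ℂ^ι` of a closed form which extends to infinity is closed.** -/
theorem Ext.closed [CompleteSpace W] (hO : IsOpen O)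
    (hG : ∀ b ∈ O, ∀ x, ContDiffAt ℝ 1 G' (b, x))
    (h : Ext O G' GS') {p : Fin n → ι}
    (hp : ∀ j, (Finset.univ.filter fun i => p i = j).card = 2) {c : Fin n → ℂ}
    (hc : ∀ i, c i ≠ 0) (hcl : ∀ b ∈ O, ∀ x, extDeriv G' (b, x) = 0) {b : E} (hb : b ∈ O) :
    extDeriv (fib volume (ver p c) G') b = 0 :=
  fib_closed hG (h.dom hO hG hp c) hb (hcl b hb) fun v j => h.int_drp hO hG hp hc hb v j

theorem Ext.contDiffOn (hO : IsOpen O) (hG : ∀ b ∈ O, ∀ x, ContDiffAt ℝ 1 G' (b, x))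
    (h : Ext O G' GS') {p : Fin n → ι}
    (hp : ∀ j, (Finset.univ.filter fun i => p i = j).card = 2) (c : Fin n → ℂ) :
    ContDiffOn ℝ 1 (fib volume (ver p c) G') O :=
  fib_contDiffOn hO hG (h.dom hO hG hp c)

end Vale.Agent.P273.H811
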