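import Vale.Agent.P273.H95.Wall
import Vale.Agent.P273.H681.CellA
import Vale.Agent.P273.H811.Tail

/-!
P273, global half of `BulkSmooth`: from the local statements about `Wf` (smooth, closed, change of
charts) to the fibre integral `PhiF`.
-/

open MeasureTheory Set Topology Filter

noncomputable section

namespace Vale.Agent.P273.H811

open H95
open H681 (C6)

/-- The local half: `Wf` is smooth and closed over configurations of distinct roots. -/
def WfSmooth (X : H95.Ext) (Θ : Gauge) (T : MT) : Prop :=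
  ∀ (S : L → Bool) (e : H95.E), e.1 ∈ H681.XX →
    ContDiffAt ℝ 1 (Wf X Θ T S) e ∧ extDeriv (Wf X Θ T S) e = 0

/-- The local half: change of charts. -/
def WfChg (X : H95.Ext) (Θ : Gauge) (T : MT) : Prop :=
  ∀ (S S' : L → Bool) (e : H95.E), e.1 ∈ H681.XX → (∀ j, S j ≠ S' j → e.2 j ≠ 0) →
    Wf X Θ T S e = (Wf X Θ T S' (H95.flip S S' e)).compContinuousLinearMap
      (fderiv ℝ (H95.flip S S') e)

/-- The charts of a finite set of marks. -/
def chS (S : Finset L) (j : L) : Bool := decide (j ∈ S)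

theorem flip_chS (S : Finset L) :
    H95.flip (fun _ => false) (chS S) = fun p : C6 × (L → ℂ) => (p.1, inv S p.2) := by
  funext p
  unfold H95.flip inv chS
  congr 1
  funext j
  by_cases hj : j ∈ S <;> simp [hj]

/-- Wf with degree `28 + 2`. -/
def Wg (X : H95.Ext) (Θ : Gauge) (T : MT) (S : L → Bool) :
    C6 × (L → ℂ) → (C6 × (L → ℂ)) [⋀^Fin (28 + 2)]→L[ℝ] ℝ := Wf X Θ T S

def pvb (i : Fin 28) : L := mrk ⟨i / 2, by omega⟩
def cvb (i : Fin 28) : ℂ := if (i : ℕ) % 2 = 0 then 1 else Complex.I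

theorem vb_eq : vb = ver pvb cvb := rfl

theorem cvb_ne (i : Fin 28) : cvb i ≠ 0 := by
  unfold cvb
  split_ifs
  · exact one_ne_zero
  · exact Complex.I_ne_zero

theorem card_pvb : ∀ j : L, (Finset.univ.filter fun i => pvb i = j).card = 2 := by
  decide +kernel

variable {X : H95.Ext} {Θ : Gauge} {T : MT}

theorem ext_Wg (h1 : WfSmooth X Θ T) (h2 : WfChg X Θ T) :
    Ext H681.XX (Wg X Θ T fun _ => false) (fun S => Wg X Θ T (chS S)) := by
  constructor
  · intro S b hb w _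
    exact (h1 (chS S) (b, w) hb).1
  · intro S b hb x hx
    have h3 := h2 (fun _ => false) (chS S) (b, x) hb (by
      intro j hj
      apply hx j
      by_contra h
      exact hj (by simp [chS, h]))
    have h4 : fderiv ℝ (H95.flip (fun _ => false) (chS S)) (b, x) = Dinv S x := by
      rw [flip_chS]
      exact (hasFDerivAt_Inv S b x hx).fderiv
    rw [h4, flip_chS] at h3
    exact h3

theorem contDiffAt_Wg (h1 : WfSmooth X Θ T) (S : L → Bool) :
    ∀ b ∈ H681.XX, ∀ x, ContDiffAt ℝ 1 (Wg X Θ T S) (b, x) :=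
  fun b hb x => (h1 S (b, x) hb).1

theorem dom_Wg (h1 : WfSmooth X Θ T) (h2 : WfChg X Θ T) :
    Dom volume vb (Wg X Θ T fun _ => false) H681.XX := by
  rw [vb_eq]
  exact (ext_Wg h1 h2).dom H681.isOpen_XX (contDiffAt_Wg h1 _) card_pvb cvb

/-- The integrand of `PhiF` is integrable. -/
theorem integrable_Wg (h1 : WfSmooth X Θ T) (h2 : WfChg X Θ T) {b : C6}
    (hb : b ∈ H681.XX) :
    Integrable (fun x => fixA vb (Wg X Θ T (fun _ => false) (b, x))) :=
  integrable_fixA (contDiffAt_Wg h1 _) (dom_Wg h1 h2) hb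

theorem phiF_contDiffOn (h1 : WfSmooth X Θ T) (h2 : WfChg X Θ T) :
    ContDiffOn ℝ 1 (PhiF X Θ T) H681.XX :=
  fib_contDiffOn H681.isOpen_XX (contDiffAt_Wg h1 _) (dom_Wg h1 h2)

theorem closed_Wg (h1 : WfSmooth X Θ T) (S : L → Bool) :
    ∀ b ∈ H681.XX, ∀ x, extDeriv (Wg X Θ T S) (b, x) = 0 :=
  fun b hb x => (h1 S (b, x) hb).2

theorem phiF_eq : PhiF X Θ T = fib volume vb (Wg X Θ T fun _ => false) := rfl

theorem phiF_closed (h1 : WfSmooth X Θ T) (h2 : WfChg X Θ T) {b : C6}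
    (hb : b ∈ H681.XX) : extDeriv (PhiF X Θ T) b = 0 := by
  rw [phiF_eq, vb_eq]
  exact (ext_Wg h1 h2).closed H681.isOpen_XX (contDiffAt_Wg h1 _) card_pvb cvb_ne (closed_Wg h1 _) hb

/-- **`BulkSmooth` from its local half.** -/
theorem bulkSmooth_of
    (h1 : ∀ (X : H95.Ext) (Θ : Gauge) (T : MT), SymT T → WfSmooth X Θ T)
    (h2 : ∀ (X : H95.Ext) (Θ : Gauge) (T : MT), SymT T → WfChg X Θ T) : BulkSmooth :=
  fun X Θ T hT => ⟨phiF_contDiffOn (h1 X Θ T hT) (h2 X Θ T hT),
    fun _ hb => phiF_closed (h1 X Θ T hT) (h2 X Θ T hT) hb⟩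

end Vale.Agent.P273.H811
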