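import Vale.Agent.P273.H811.Div

/-!
Fibre integrals of differential forms on `E × X` over a finite-dimensional space `X`: the version
with tails (no compact support).

* `vec e v` : the tuple `(0, e_1), …, (0, e_n), (v_1, 0), …, (v_k, 0)`;
* `fixA e ω` : the `k`-form `v ↦ ω (vec e v)`;
* `fib μ e G b = ∫ x, fixA e (G (b, x))`;
* `fib_hasFDerivAt`, `fib_contDiffOn`, `fib_closed`.
-/

open MeasureTheory Set Topology Filter

noncomputable section

namespace Vale.Agent.P273.H811

set_option linter.unusedSectionVars false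

variable {E X W : Type*} [NormedAddCommGroup E] [NormedSpace ℝ E] [NormedAddCommGroup X]
  [NormedSpace ℝ X] [NormedAddCommGroup W] [NormedSpace ℝ W] {n k : ℕ}

local instance instCE : ContinuousENorm (E →L[ℝ] (E [⋀^Fin k]→L[ℝ] W)) :=
  @SeminormedAddGroup.toContinuousENorm (E →L[ℝ] (E [⋀^Fin k]→L[ℝ] W)) _

local instance instPM : TopologicalSpace.PseudoMetrizableSpace
    (E →L[ℝ] (E [⋀^Fin k]→L[ℝ] W)) :=
  @PseudoEMetricSpace.pseudoMetrizableSpace (E →L[ℝ] (E [⋀^Fin k]→L[ℝ] W)) _

/-- First the fixed vertical vectors, then the horizontal ones. -/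
def vec (e : Fin n → X) (v : Fin k → E) : Fin (n + k) → E × X :=
  Fin.append (fun j => (0, e j)) (fun i => (v i, 0))

theorem vec_castAdd (e : Fin n → X) (v : Fin k → E) (j : Fin n) :
    vec e v (Fin.castAdd k j) = (0, e j) := by simp [vec]

theorem vec_natAdd (e : Fin n → X) (v : Fin k → E) (i : Fin k) :
    vec e v (Fin.natAdd n i) = (v i, 0) := by simp [vec]

/-- `vec e v` for `k + 1` horizontal vectors, without the vertical vector number `j`. -/
def drp (e : Fin n → X) (v : Fin (k + 1) → E) (j : Fin n) : Fin (n + k) → E × X :=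
  fun l => vec (n := n) (k := k + 1) e v
    ((Fin.castAdd (k + 1) j : Fin (n + (k + 1))).succAbove (n := n + k) l)

theorem vec_update [DecidableEq (Fin k)] (e : Fin n → X) (v : Fin k → E) (i : Fin k) (y : E) :
    vec e (Function.update v i y) = Function.update (vec e v) (Fin.natAdd n i) (y, 0) := by
  funext l
  refine Fin.addCases (fun a => ?_) (fun a => ?_) l
  · have h : Fin.castAdd k a ≠ Fin.natAdd n i := by
      intro h
      have := congrArg Fin.val h
      simp at this
      omega
    rw [Function.update_of_ne h, vec_castAdd, vec_castAdd]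
  · by_cases h : a = i
    · subst h
      rw [Function.update_self, vec_natAdd, Function.update_self]
    · have h' : Fin.natAdd n a ≠ Fin.natAdd n i := by
        intro h1
        exact h ((Fin.natAdd_inj n).1 h1)
      rw [Function.update_of_ne h', vec_natAdd, vec_natAdd, Function.update_of_ne h]

/-- The alternating map with fixed vertical vectors. -/
def fixL (e : Fin n → X) (ω : (E × X) [⋀^Fin (n + k)]→L[ℝ] W) : E [⋀^Fin k]→ₗ[ℝ] W where
  toFun v := ω (vec e v)
  map_update_add' v i x y := by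
    rw [vec_update, vec_update, vec_update]
    have h : ((x + y, 0) : E × X) = (x, 0) + (y, 0) := by simp
    rw [h]
    exact ω.map_update_add _ _ _ _
  map_update_smul' v i c x := by
    rw [vec_update, vec_update]
    have h : ((c • x, 0) : E × X) = c • (x, 0) := by simp
    rw [h]
    exact ω.map_update_smul _ _ _ _
  map_eq_zero_of_eq' v i j h hij := by
    apply ω.map_eq_zero_of_eq (i := Fin.natAdd n i) (j := Fin.natAdd n j)
    · rw [vec_natAdd, vec_natAdd, h]
    · intro h1
      exact hij ((Fin.natAdd_inj n).1 h1)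

theorem fixL_bound (e : Fin n → X) (ω : (E × X) [⋀^Fin (n + k)]→L[ℝ] W) (v : Fin k → E) :
    ‖fixL e ω v‖ ≤ (∏ j, ‖e j‖) * ‖ω‖ * ∏ i, ‖v i‖ := by
  have h := ω.le_opNorm (vec e v)
  rw [Fin.prod_univ_add] at h
  simp only [vec_castAdd, vec_natAdd, Prod.norm_def, norm_zero] at h
  have h1 : ∀ a : ℝ, 0 ≤ a → max 0 a = a := fun a ha => max_eq_right ha
  have h2 : ∀ a : ℝ, 0 ≤ a → max a 0 = a := fun a ha => max_eq_left ha
  simp only [h1 _ (norm_nonneg _), h2 _ (norm_nonneg _)] at h
  calc ‖fixL e ω v‖ = ‖ω (vec e v)‖ := rfl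
    _ ≤ ‖ω‖ * ((∏ j, ‖e j‖) * ∏ i, ‖v i‖) := h
    _ = (∏ j, ‖e j‖) * ‖ω‖ * ∏ i, ‖v i‖ := by ring

/-- `ω ↦ (v ↦ ω (e, v))` as a continuous linear map. -/
def fixA (e : Fin n → X) :
    ((E × X) [⋀^Fin (n + k)]→L[ℝ] W) →L[ℝ] (E [⋀^Fin k]→L[ℝ] W) :=
  AlternatingMap.mkContinuousLinear
    { toFun := fixL e
      map_add' := fun ω ω' => by
        ext v
        simp [fixL]
      map_smul' := fun c ω => by
        ext v
        simp [fixL] }
    (∏ j, ‖e j‖) (fun ω v => fixL_bound e ω v)

theorem fixA_apply (e : Fin n → X) (ω : (E × X) [⋀^Fin (n + k)]→L[ℝ] W) (v : Fin k → E) :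
    fixA e ω v = ω (vec e v) := rfl

theorem removeNth_natAdd (e : Fin n → X) (v : Fin (k + 1) → E) (i : Fin (k + 1)) :
    (fun l => vec (n := n) (k := k + 1) e v ((Fin.natAdd n i).succAbove (n := n + k) l)) =
      vec e (i.removeNth v) := by
  funext l
  refine Fin.addCases (fun a => ?_) (fun a => ?_) l
  · rw [vec_castAdd]
    have h : (Fin.natAdd n i : Fin (n + k + 1)).succAbove (Fin.castAdd k a) =
        Fin.castAdd (k + 1) a := by
      apply Fin.ext
      rw [Fin.succAbove_of_castSucc_lt _ _ (by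
        rw [Fin.lt_def]
        simp
        omega)]
      simp
    show vec (n := n) (k := k + 1) e v
      ((Fin.natAdd n i : Fin (n + k + 1)).succAbove (Fin.castAdd k a)) = _
    rw [h, vec_castAdd]
  · rw [vec_natAdd]
    have h : (Fin.natAdd n i : Fin (n + k + 1)).succAbove (Fin.natAdd n a) =
        Fin.natAdd n (i.succAbove a) := by
      apply Fin.ext
      by_cases hlt : a.castSucc < i
      · rw [Fin.succAbove_of_castSucc_lt _ _ (by
          rw [Fin.lt_def] at hlt ⊢
          simp at hlt ⊢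
          omega), Fin.succAbove_of_castSucc_lt _ _ hlt]
        simp
      · rw [not_lt] at hlt
        rw [Fin.succAbove_of_le_castSucc _ _ (by
          rw [Fin.le_def] at hlt ⊢
          simp at hlt ⊢
          omega), Fin.succAbove_of_le_castSucc _ _ hlt]
        simp
        omega
    show vec (n := n) (k := k + 1) e v
      ((Fin.natAdd n i : Fin (n + k + 1)).succAbove (Fin.natAdd n a)) = _
    rw [h, vec_natAdd]
    rfl

/-- Evaluation of the exterior derivative on `vec e v`. -/
theorem extDeriv_vec (G : E × X → (E × X) [⋀^Fin (n + k)]→L[ℝ] W) (p : E × X) (e : Fin n → X) (v : Fin (k + 1) → E) :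
    extDeriv G p (vec (n := n) (k := k + 1) e v) =
      (∑ j : Fin n, (-1) ^ j.val • fderiv ℝ G p (0, e j) (drp e v j)) +
      ∑ i : Fin (k + 1), (-1) ^ (n + i.val) • fderiv ℝ G p (v i, 0) (vec e (i.removeNth v)) := by
  rw [extDeriv, ContinuousAlternatingMap.alternatizeUncurryFin_apply]
  have h := Fin.sum_univ_add (a := n) (b := k + 1) (fun i : Fin (n + (k + 1)) =>
    (-1) ^ i.val • fderiv ℝ G p (vec (n := n) (k := k + 1) e v i)
      (fun l : Fin (n + k) => vec (n := n) (k := k + 1) e v (i.succAbove (n := n + k) l)))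
  refine Eq.trans ?_ (h.trans ?_)
  · rfl
  congr 1
  · apply Finset.sum_congr rfl
    intro j _
    rw [vec_castAdd]
    rfl
  · apply Finset.sum_congr rfl
    intro i _
    rw [removeNth_natAdd, vec_natAdd]
    rfl

variable [MeasurableSpace X]

/-- The fibre integral. -/
def fib (μ : Measure X) (e : Fin n → X) (G : E × X → (E × X) [⋀^Fin (n + k)]→L[ℝ] W) (b : E) :
    E [⋀^Fin k]→L[ℝ] W :=
  ∫ x, fixA e (G (b, x)) ∂μ

/-- The base derivative of the integrand. -/
def der (e : Fin n → X) (G : E × X → (E × X) [⋀^Fin (n + k)]→L[ℝ] W) (b : E) (x : X) :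
    E →L[ℝ] (E [⋀^Fin k]→L[ℝ] W) :=
  (fixA e).comp ((fderiv ℝ G (b, x)).comp (ContinuousLinearMap.inl ℝ E X))

theorem der_apply (e : Fin n → X) (G : E × X → (E × X) [⋀^Fin (n + k)]→L[ℝ] W) (b : E) (x : X)
    (u : E) (v : Fin k → E) : der e G b x u v = fderiv ℝ G (b, x) (u, 0) (vec e v) := rfl

/-- Domination of the integrand and of its base derivative, locally uniformly in the base. -/
def Dom (μ : Measure X) (e : Fin n → X) (G : E × X → (E × X) [⋀^Fin (n + k)]→L[ℝ] W)
    (O : Set E) : Prop :=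
  ∀ b ∈ O, ∃ V ∈ 𝓝 b, ∃ g : X → ℝ, Integrable g μ ∧ V ⊆ O ∧
    ∀ b' ∈ V, ∀ x, ‖fixA e (G (b', x))‖ ≤ g x ∧ ‖der e G b' x‖ ≤ g x

variable [BorelSpace X] [SecondCountableTopology X]
  {μ : Measure X} {O : Set E} {e : Fin n → X} {G : E × X → (E × X) [⋀^Fin (n + k)]→L[ℝ] W}

theorem slice_contDiff (hG : ∀ b ∈ O, ∀ x, ContDiffAt ℝ 1 G (b, x)) {b : E} (hb : b ∈ O) :
    ContDiff ℝ 1 (fun x => G (b, x)) := by
  rw [contDiff_iff_contDiffAt]
  intro x
  exact (hG b hb x).comp x (contDiffAt_const.prodMk contDiffAt_id)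

theorem slice_continuous_fderiv (hG : ∀ b ∈ O, ∀ x, ContDiffAt ℝ 1 G (b, x)) {b : E}
    (hb : b ∈ O) : Continuous (fun x => fderiv ℝ G (b, x)) := by
  rw [continuous_iff_continuousAt]
  intro x
  have h : ContinuousAt (fderiv ℝ G) (b, x) := (hG b hb x).fderiv_right (m := 0) (by simp)
    |>.continuousAt
  exact ContinuousAt.comp (f := fun x => (b, x)) h (by fun_prop)

theorem der_continuous (hG : ∀ b ∈ O, ∀ x, ContDiffAt ℝ 1 G (b, x)) {b : E} (hb : b ∈ O) :
    Continuous (der e G b) := by
  unfold der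
  exact continuous_const.clm_comp ((slice_continuous_fderiv hG hb).clm_comp continuous_const)

theorem fixA_continuous (hG : ∀ b ∈ O, ∀ x, ContDiffAt ℝ 1 G (b, x)) {b : E} (hb : b ∈ O) :
    Continuous (fun x => fixA e (G (b, x))) :=
  (fixA e).continuous.comp (slice_contDiff hG hb).continuous

theorem integrable_fixA (hG : ∀ b ∈ O, ∀ x, ContDiffAt ℝ 1 G (b, x)) (hD : Dom μ e G O) {b : E}
    (hb : b ∈ O) : Integrable (fun x => fixA e (G (b, x))) μ := by
  obtain ⟨V, hV, g, hg, _, h⟩ := hD b hb
  exact hg.mono' (fixA_continuous hG hb).aestronglyMeasurable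
    (Eventually.of_forall fun x => (h b (mem_of_mem_nhds hV) x).1)

theorem integrable_der (hG : ∀ b ∈ O, ∀ x, ContDiffAt ℝ 1 G (b, x)) (hD : Dom μ e G O) {b : E}
    (hb : b ∈ O) : Integrable (der e G b) μ := by
  obtain ⟨V, hV, g, hg, _, h⟩ := hD b hb
  exact Integrable.mono' (f := der e G b) hg (der_continuous hG hb).aestronglyMeasurable
    (Eventually.of_forall fun x => (h b (mem_of_mem_nhds hV) x).2)

/-- **Differentiation of the fibre integral.** -/
theorem fib_hasFDerivAt (hG : ∀ b ∈ O, ∀ x, ContDiffAt ℝ 1 G (b, x)) (hD : Dom μ e G O) {b : E}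
    (hb : b ∈ O) : HasFDerivAt (fib μ e G) (∫ x, der e G b x ∂μ) b := by
  obtain ⟨V, hV, g, hg, hVO, h⟩ := hD b hb
  unfold fib
  apply hasFDerivAt_integral_of_dominated_of_fderiv_le (bound := g) (F' := der e G) hV
  · filter_upwards [hV] with b' hb'
    exact (fixA_continuous hG (hVO hb')).aestronglyMeasurable
  · exact integrable_fixA hG hD hb
  · exact (der_continuous hG hb).aestronglyMeasurable
  · exact Eventually.of_forall fun x b' hb' => (h b' hb' x).2
  · exact hg
  · refine Eventually.of_forall fun x b' hb' => ?_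
    have h1 : HasFDerivAt G (fderiv ℝ G (b', x)) (b', x) :=
      ((hG b' (hVO hb') x).differentiableAt (by norm_num)).hasFDerivAt
    have h2 : HasFDerivAt (fun b : E => (b, x)) (ContinuousLinearMap.inl ℝ E X) b' :=
      (hasFDerivAt_id b').prodMk (hasFDerivAt_const x b')
    exact (fixA e).hasFDerivAt.comp b' (h1.comp b' h2)

theorem fderiv_fib (hG : ∀ b ∈ O, ∀ x, ContDiffAt ℝ 1 G (b, x)) (hD : Dom μ e G O) {b : E}
    (hb : b ∈ O) : fderiv ℝ (fib μ e G) b = ∫ x, der e G b x ∂μ :=
  (fib_hasFDerivAt hG hD hb).fderiv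

/-- The fibre integral is `C^1`. -/
theorem fib_contDiffOn (hO : IsOpen O) (hG : ∀ b ∈ O, ∀ x, ContDiffAt ℝ 1 G (b, x))
    (hD : Dom μ e G O) : ContDiffOn ℝ 1 (fib μ e G) O := by
  have h01 : (1 : WithTop ℕ∞) = 0 + 1 := by norm_num
  rw [h01, contDiffOn_succ_iff_fderiv_of_isOpen hO]
  refine ⟨fun b hb => (fib_hasFDerivAt hG hD hb).differentiableAt.differentiableWithinAt,
    by simp, ?_⟩
  rw [contDiffOn_zero]
  intro b hb
  obtain ⟨V, hV, g, hg, hVO, h⟩ := hD b hb
  have h1 : ContinuousAt (fun b' => ∫ x, der e G b' x ∂μ) b := by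
    apply continuousAt_of_dominated (bound := g)
    · filter_upwards [hV] with b' hb'
      exact (der_continuous hG (hVO hb')).aestronglyMeasurable
    · filter_upwards [hV] with b' hb'
      exact Eventually.of_forall fun x => (h b' hb' x).2
    · exact hg
    · refine Eventually.of_forall fun x => ?_
      have h2 : ContinuousAt (fderiv ℝ G) (b, x) := (hG b hb x).fderiv_right (m := 0) (by simp)
        |>.continuousAt
      have h3 : ContinuousAt (fun b' => fderiv ℝ G (b', x)) b :=
        ContinuousAt.comp (f := fun b' => (b', x)) h2 (by fun_prop)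
      unfold der
      exact continuousAt_const.clm_comp (h3.clm_comp continuousAt_const)
  apply ContinuousAt.continuousWithinAt
  apply h1.congr
  filter_upwards [hV] with b' hb'
  exact (fderiv_fib hG hD (hVO hb')).symm

/-- **The fibre integral of a closed form is closed** (version with tails). -/
theorem fib_closed [CompleteSpace W] [FiniteDimensional ℝ X] [μ.IsAddHaarMeasure]
    (hG : ∀ b ∈ O, ∀ x, ContDiffAt ℝ 1 G (b, x)) (hD : Dom μ e G O) {b : E}
    (hb : b ∈ O) (hcl : ∀ x, extDeriv G (b, x) = 0)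
    (hI : ∀ (v : Fin (k + 1) → E) (j : Fin n), Integrable (fun x => (1 + ‖x‖)⁻¹ *
      ‖G (b, x) (drp e v j)‖) μ) :
    extDeriv (fib μ e G) b = 0 := by
  ext v
  have hi := integrable_der hG hD hb
  have happ : ∀ i : Fin (k + 1), (∫ x, der e G b x ∂μ) (v i) (i.removeNth v) =
      ∫ x, der e G b x (v i) (i.removeNth v) ∂μ := by
    intro i
    rw [ContinuousLinearMap.integral_apply hi]
    have h1 : Integrable (fun x => der e G b x (v i)) μ := hi.apply_continuousLinearMap (v i)
    exact (ContinuousLinearMap.integral_comp_comm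
      (ContinuousAlternatingMap.apply ℝ E W (i.removeNth v)) h1).symm
  have hint : ∀ i : Fin (k + 1), Integrable (fun x => der e G b x (v i) (i.removeNth v)) μ := by
    intro i
    have h1 : Integrable (fun x => der e G b x (v i)) μ := hi.apply_continuousLinearMap (v i)
    exact (ContinuousAlternatingMap.apply ℝ E W (i.removeNth v)).integrable_comp h1
  -- the vertical part
  set f : Fin n → X → W := fun j x => ((-1 : ℝ) ^ j.val) • G (b, x) (drp e v j) with hf
  have hfd : ∀ j x, fderiv ℝ (f j) x (e j) =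
      ((-1 : ℝ) ^ j.val) • fderiv ℝ G (b, x) (0, e j) (drp e v j) := by
    intro j x
    have h1 : HasFDerivAt G (fderiv ℝ G (b, x)) (b, x) :=
      ((hG b hb x).differentiableAt (by norm_num)).hasFDerivAt
    have h2 : HasFDerivAt (fun x : X => (b, x)) (ContinuousLinearMap.inr ℝ E X) x :=
      (hasFDerivAt_const b x).prodMk (hasFDerivAt_id x)
    have h3 := ((ContinuousAlternatingMap.apply ℝ (E × X) W (drp e v j)).hasFDerivAt.comp x
      (h1.comp x h2)).const_smul ((-1 : ℝ) ^ j.val)
    have h4 : HasFDerivAt (f j) _ x := h3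
    rw [h4.fderiv]
    rfl
  have hkey : ∀ x, ∑ j : Fin n, fderiv ℝ (f j) x (e j) =
      - ((-1 : ℝ) ^ n • ∑ i : Fin (k + 1), (-1 : ℝ) ^ i.val •
        der e G b x (v i) (i.removeNth v)) := by
    intro x
    have h1 := extDeriv_vec G (b, x) e v
    rw [hcl x] at h1
    rw [eq_neg_iff_add_eq_zero, Finset.smul_sum]
    have h2 : (0 : (E × X) [⋀^Fin (n + k + 1)]→L[ℝ] W) (vec (n := n) (k := k + 1) e v) = 0 :=
      rfl
    rw [h2] at h1
    rw [h1]
    congr 1
    · apply Finset.sum_congr rfl
      intro j _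
      rw [hfd]
      rcases Nat.even_or_odd j.val with hj | hj <;> simp [hj.neg_one_pow]
    · apply Finset.sum_congr rfl
      intro i _
      rw [der_apply, smul_smul, ← pow_add]
      rcases Nat.even_or_odd (n + i.val) with hj | hj <;> simp [hj.neg_one_pow]
  have hsumint : Integrable (fun x => ∑ i : Fin (k + 1), (-1 : ℝ) ^ i.val •
      der e G b x (v i) (i.removeNth v)) μ :=
    integrable_finsetSum _ fun i _ => (hint i).smul _
  have hdiv : ∫ x, ∑ j : Fin n, fderiv ℝ (f j) x (e j) ∂μ = 0 := by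
    apply integral_div_eq_zero
    · intro j _
      simp only [hf]
      exact contDiff_const.smul ((ContinuousAlternatingMap.apply ℝ (E × X) W
        (drp e v j)).contDiff.comp (slice_contDiff hG hb))
    · intro j _
      refine (hI v j).congr (Eventually.of_forall fun x => ?_)
      simp only [hf, norm_smul, norm_pow, norm_neg, norm_one, one_pow, one_mul]
    · simp_rw [hkey]
      exact ((hsumint.smul _).neg)
  simp_rw [hkey] at hdiv
  rw [integral_neg, integral_smul, neg_eq_zero] at hdiv
  have h0 : ∫ x, ∑ i : Fin (k + 1), (-1 : ℝ) ^ i.val • der e G b x (v i) (i.removeNth v) ∂μ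
      = 0 := by
    rcases smul_eq_zero.1 hdiv with h | h
    · exfalso
      rcases Nat.even_or_odd n with hj | hj <;> simp [hj.neg_one_pow] at h
    · exact h
  have h0' : ∑ i : Fin (k + 1), ∫ x, (-1 : ℝ) ^ i.val • der e G b x (v i) (i.removeNth v) ∂μ
      = 0 := by
    rw [← h0]
    exact (integral_finsetSum _ fun i _ => (hint i).smul ((-1 : ℝ) ^ i.val)).symm
  rw [extDeriv, ContinuousAlternatingMap.alternatizeUncurryFin_apply, fderiv_fib hG hD hb]
  simp only [happ]
  refine Eq.trans ?_ h0'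
  apply Finset.sum_congr rfl
  intro i _
  rw [integral_smul]
  rcases Nat.even_or_odd i.val with hj | hj <;> simp [hj.neg_one_pow]

end Vale.Agent.P273.H811
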