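import Vale.Agent.P273.H811.Lin
import Vale.Agent.P273.H887.WfChg

/-!
P273: `BulkSmooth` and `BulkLinear`.
-/

namespace Vale.Agent.P273.H811

open H95 Vale.P273.H887

theorem wfSmooth (X : H95.Ext) (Θ : Gauge) (T : MT) (hT : SymT T) : WfSmooth X Θ T :=
  fun S e he => ⟨(Wf_smooth_closed X Θ T hT S e he).1.of_le (by simp),
    (Wf_smooth_closed X Θ T hT S e he).2⟩

theorem wfChg (X : H95.Ext) (Θ : Gauge) (T : MT) (hT : SymT T) : WfChg X Θ T :=
  fun S S' e he hz => Wf_chg X Θ T hT S S' e he hz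

theorem bulkSmooth : BulkSmooth := bulkSmooth_of wfSmooth wfChg

theorem bulkLinear : BulkLinear := bulkLinear_of wfSmooth wfChg

end Vale.Agent.P273.H811
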