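import Vale.Agent.P273.H732.Conv2
import Vale.Agent.P273.H375.DenR

/-!
P273: the neck data at the theta point satisfy the conditions of the region decomposition.
-/

open MeasureTheory Set

noncomputable section

namespace Vale.Agent.P273.H811

open H95 H852

/-- `nd y a` with another branch at the three centres. -/
def nd' (y a : Fin 3 → ℝ) : Necks (Fin 3) :=
  { H732.nd y a with
    s := fun x => if ∃ k, x = ctr k then csq (sx (thA (H732.nd y a).ε) x)
      else (H732.nd y a).s x }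

theorem csq_sq' (z : ℂ) : csq z ^ 2 = z := by
  have h := Complex.cpow_nat_inv_pow z (n := 2) two_ne_zero
  have h2 : ((2 : ℕ) : ℂ)⁻¹ = 1 / 2 := by norm_num
  rw [h2] at h
  exact h

theorem gc_sq (ε : Fin 3 → ℂ) {x : ℂ} (hx : ∀ k, x ≠ ctr k) :
    gc ε x ^ 2 = ∏ k, ((x - ctr k) ^ 2 - ε k) := by
  unfold gc
  rw [← Finset.prod_pow]
  refine Finset.prod_congr rfl fun k _ => ?_
  have h : (x - ctr k) ≠ 0 := sub_ne_zero.2 (hx k)
  rw [mul_pow, csq_sq']
  field_simp

theorem gk_sq (ε : Fin 3 → ℂ) (k : Fin 3) {x : ℂ} (hx : ∀ l, l ≠ k → x ≠ ctr l) :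
    gk ε k x ^ 2 = ∏ l, if l = k then 1 else ((x - ctr l) ^ 2 - ε l) := by
  unfold gk
  rw [← Finset.prod_pow]
  refine Finset.prod_congr rfl fun l _ => ?_
  by_cases hl : l = k
  · simp [hl]
  · rw [if_neg hl, if_neg hl]
    have h : (x - ctr l) ≠ 0 := sub_ne_zero.2 (hx l hl)
    rw [mul_pow, csq_sq']
    field_simp

theorem prod_split (k : Fin 3) (f : Fin 3 → ℂ) :
    f k * (∏ l, if l = k then 1 else f l) = ∏ l, f l := by
  rw [← Finset.mul_prod_erase Finset.univ f (Finset.mem_univ k)]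
  congr 1
  rw [← Finset.mul_prod_erase Finset.univ (fun l => if l = k then 1 else f l) (Finset.mem_univ k)]
  simp only [if_true, one_mul]
  refine Finset.prod_congr rfl fun l hl => ?_
  rw [if_neg (Finset.ne_of_mem_erase hl)]

theorem dist_ctr {k l : Fin 3} (h : k ≠ l) : 2 ≤ ‖ctr k - ctr l‖ := by
  have h1 : ctr k - ctr l = ((2 * ((k : ℕ) : ℝ) - 2 * ((l : ℕ) : ℝ) : ℝ) : ℂ) := by
    unfold ctr
    push_cast
    ring
  rw [h1, Complex.norm_real, Real.norm_eq_abs]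
  have h2 : (k : ℕ) ≠ (l : ℕ) := fun h3 => h (Fin.ext h3)
  rcases lt_or_gt_of_ne h2 with h3 | h3
  · have h4 : ((k : ℕ) : ℝ) + 1 ≤ ((l : ℕ) : ℝ) := by exact_mod_cast h3
    rw [abs_of_nonpos (by linarith)]
    linarith
  · have h4 : ((l : ℕ) : ℝ) + 1 ≤ ((k : ℕ) : ℝ) := by exact_mod_cast h3
    rw [abs_of_nonneg (by linarith)]
    linarith

theorem norm_ctr_le (k : Fin 3) : ‖ctr k‖ ≤ 11 / 2 := by
  have h1 : ctr k = ((2 * ((k : ℕ) : ℝ) + 3 / 2 : ℝ) : ℂ) := by
    unfold ctr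
    push_cast
    ring
  rw [h1, Complex.norm_real, Real.norm_eq_abs, abs_of_nonneg (by positivity)]
  have h2 : ((k : ℕ) : ℝ) ≤ 2 := by exact_mod_cast Nat.lt_succ_iff.1 k.2
  linarith

theorem ell_near {e ε x : ℂ} {c : ℝ} (h : x ∈ ell e ε c) : ‖x - e‖ < c := by
  obtain ⟨U, V, -, h2, hU, hV⟩ := h
  have h3 : x - e = (U + V) / 2 := by rw [h2]; ring
  rw [h3, norm_div]
  have h4 := norm_add_le U V
  simp only [Complex.norm_ofNat]
  linarith

theorem ell_ne {k l : Fin 3} {ε x : ℂ} (h : x ∈ ell (ctr k) ε (1 / 16)) (hl : l ≠ k) :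
    x ≠ ctr l := by
  intro h1
  have h2 := ell_near h
  rw [h1] at h2
  have h3 := dist_ctr hl
  linarith

theorem ell_subset_ball (k : Fin 3) (ε : ℂ) : ell (ctr k) ε (1 / 16) ⊆ Metric.closedBall 0 11 := by
  intro x hx
  rw [mem_closedBall_zero_iff]
  have h1 := ell_near hx
  have h2 := norm_ctr_le k
  have h3 : ‖x‖ ≤ ‖x - ctr k‖ + ‖ctr k‖ := by
    have := norm_add_le (x - ctr k) (ctr k)
    simpa using this
  linarith

/-- The branch is a square root of the polynomial everywhere. -/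
theorem nd'_s_sq (y a : Fin 3 → ℝ) (x : ℂ) :
    (nd' y a).s x ^ 2 = sx (thA (H732.nd y a).ε) x := by
  change (if ∃ k, x = ctr k then csq (sx (thA (H732.nd y a).ε) x)
      else -gc (H732.nd y a).ε x) ^ 2 = _
  by_cases h : ∃ k, x = ctr k
  · rw [if_pos h, csq_sq']
  · rw [if_neg h]
    push Not at h
    rw [neg_sq, gc_sq _ h, H375.sx_thA]

theorem nd'_s_eq (y a : Fin 3 → ℝ) {x : ℂ} (hx : ∀ k, x ≠ ctr k) :
    (nd' y a).s x = (H732.nd y a).s x := by
  change (if ∃ k, x = ctr k then _ else _) = _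
  rw [if_neg (by push Not; exact hx)]

theorem measurable_csq : Measurable csq := by
  unfold csq
  exact measurable_id.pow_const _

theorem measurable_gc (ε : Fin 3 → ℂ) : Measurable (gc ε) := by
  unfold gc
  refine Finset.measurable_fun_prod _ fun k _ => ?_
  refine Measurable.mul (by fun_prop) (measurable_csq.comp ?_)
  fun_prop

theorem measurable_gk (ε : Fin 3 → ℂ) (k : Fin 3) : Measurable (gk ε k) := by
  unfold gk
  refine Finset.measurable_fun_prod _ fun l _ => ?_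
  by_cases h : l = k
  · simp only [h, if_true]
    exact measurable_const
  · simp only [h, if_false]
    refine Measurable.mul (by fun_prop) (measurable_csq.comp ?_)
    fun_prop

theorem continuous_sx' (a : H681.C6) : Continuous (sx a) := by
  unfold sx
  fun_prop

theorem measurable_nd'_s (y a : Fin 3 → ℝ) : Measurable (nd' y a).s := by
  refine Measurable.ite ?_ (measurable_csq.comp (continuous_sx' _).measurable)
    (measurable_gc _).neg
  have h1 : {x : ℂ | ∃ k : Fin 3, x = ctr k} = Set.range ctr := by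
    ext x
    exact ⟨fun ⟨k, hk⟩ => ⟨k, hk.symm⟩, fun ⟨k, hk⟩ => ⟨k, hk.symm⟩⟩
  rw [h1]
  exact (Set.finite_range _).measurableSet

theorem nd'_e (y a : Fin 3 → ℝ) : (nd' y a).e = ctr := rfl
theorem nd'_c (y a : Fin 3 → ℝ) (k : Fin 3) : (nd' y a).c k = 1 / 16 := rfl
theorem nd'_ε (y a : Fin 3 → ℝ) : (nd' y a).ε = (H732.nd y a).ε := rfl
theorem nd'_G (y a : Fin 3 → ℝ) : (nd' y a).G = gk (H732.nd y a).ε := rfl

theorem nd'_sq (y a : Fin 3 → ℝ) (k : Fin 3) {x : ℂ}
    (hx : x ∈ ell ((nd' y a).e k) ((nd' y a).ε k) ((nd' y a).c k)) :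
    (nd' y a).s x ^ 2 = ((x - (nd' y a).e k) ^ 2 - (nd' y a).ε k) * ((nd' y a).G k x) ^ 2 := by
  rw [nd'_e, nd'_c] at hx
  rw [nd'_s_sq, H375.sx_thA, nd'_G, nd'_e, gk_sq _ k fun l hl => ell_ne hx hl, nd'_ε]
  exact (prod_split k fun l => (x - ctr l) ^ 2 - (H732.nd y a).ε l).symm

theorem nd'_disj (y a : Fin 3 → ℝ) : Pairwise (Function.onFun Disjoint
    fun k => ell ((nd' y a).e k) ((nd' y a).ε k) ((nd' y a).c k)) := by
  intro k l hkl
  rw [Function.onFun, Set.disjoint_left]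
  intro x hx hx'
  rw [nd'_e, nd'_c] at hx hx'
  have h1 := ell_near hx
  have h2 := ell_near hx'
  have h3 := dist_ctr hkl
  have h4 : ‖ctr k - ctr l‖ ≤ ‖x - ctr l‖ + ‖x - ctr k‖ := by
    have := norm_sub_le (x - ctr l) (x - ctr k)
    have h5 : x - ctr l - (x - ctr k) = ctr k - ctr l := by ring
    rwa [h5] at this
  linarith

theorem nd'_eps (y a : Fin 3 → ℝ) (k : Fin 3) : (nd' y a).ε k = ((nd' y a).c k : ℂ) ^ 2 *
    Complex.exp (-((nd' y a).Y k : ℂ) + ((nd' y a).a k : ℂ) * Complex.I) := rfl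

theorem nd'_meas_G (y a : Fin 3 → ℝ) (k : Fin 3) : Measurable ((nd' y a).G k) := by
  rw [nd'_G]
  exact measurable_gk _ k

theorem nd'_c_pos (y a : Fin 3 → ℝ) (k : Fin 3) : 0 < (nd' y a).c k := by
  rw [nd'_c]
  norm_num

/-- **(P3)** -/
theorem nd'_good {y a : Fin 3 → ℝ} (hy : ∀ k, 0 < y k) : (nd' y a).Good :=
  ⟨nd'_c_pos y a, hy, nd'_eps y a, nd'_meas_G y a, measurable_nd'_s y a,
    fun k _ hx => nd'_sq y a k hx, nd'_disj y a⟩

theorem nd'_ball (y a : Fin 3 → ℝ) (k : Fin 3) :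
    ell ((nd' y a).e k) ((nd' y a).ε k) ((nd' y a).c k) ⊆ Metric.closedBall 0 11 :=
  ell_subset_ball k _

end Vale.Agent.P273.H811
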