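import Mathlib

/-!
The integral over a finite-dimensional space of a divergence vanishes when the components, divided
by `1 + ‖x‖`, and the divergence are integrable.
-/

open MeasureTheory Set Topology Filter

noncomputable section

namespace Vale.Agent.P273.H811

set_option linter.unusedSectionVars false

variable {X : Type*} [NormedAddCommGroup X] [NormedSpace ℝ X] [FiniteDimensional ℝ X]
  [MeasurableSpace X] [BorelSpace X] {μ : Measure X} [μ.IsAddHaarMeasure]
  {W : Type*} [NormedAddCommGroup W] [NormedSpace ℝ W]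

/-- A bump function which equals `1` near `0`. -/
def bmp (X : Type*) [NormedAddCommGroup X] [NormedSpace ℝ X] : ContDiffBump (0 : X) :=
  ⟨1, 2, one_pos, one_lt_two⟩

/-- The dilated bump function. -/
def cut (n : ℕ) (x : X) : ℝ := bmp X ((n + 1 : ℝ)⁻¹ • x)

theorem cut_contDiff (n : ℕ) : ContDiff ℝ 1 (cut n : X → ℝ) := by
  unfold cut
  exact (bmp X).contDiff.comp (contDiff_const_smul _)

theorem cut_nonneg (n : ℕ) (x : X) : 0 ≤ cut n x := (bmp X).nonneg

theorem cut_le_one (n : ℕ) (x : X) : cut n x ≤ 1 := (bmp X).le_one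

theorem cut_eq_one (n : ℕ) (x : X) (hx : ‖x‖ ≤ n + 1) : cut n x = 1 := by
  unfold cut
  apply (bmp X).one_of_mem_closedBall
  have h : (0 : ℝ) < n + 1 := by positivity
  rw [Metric.mem_closedBall, dist_zero_right, norm_smul, norm_inv, Real.norm_of_nonneg h.le]
  show (n + 1 : ℝ)⁻¹ * ‖x‖ ≤ 1
  rw [inv_mul_le_iff₀ h, mul_one]
  exact hx

theorem cut_eq_zero (n : ℕ) (x : X) (hx : 2 * (n + 1) ≤ ‖x‖) : cut n x = 0 := by
  unfold cut
  apply (bmp X).zero_of_le_dist
  have h : (0 : ℝ) < n + 1 := by positivity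
  rw [dist_zero_right, norm_smul, norm_inv, Real.norm_of_nonneg h.le]
  show (2 : ℝ) ≤ (n + 1 : ℝ)⁻¹ * ‖x‖
  rw [le_inv_mul_iff₀ h, mul_comm]
  exact hx

theorem cut_hasCompactSupport (n : ℕ) : HasCompactSupport (cut n : X → ℝ) := by
  apply HasCompactSupport.intro (isCompact_closedBall (0 : X) (2 * (n + 1)))
  intro x hx
  apply cut_eq_zero
  rw [Metric.mem_closedBall, dist_zero_right, not_le] at hx
  exact hx.le

theorem bmp_fderiv_bound : ∃ C : ℝ, 0 ≤ C ∧ ∀ x : X, ‖fderiv ℝ (bmp X) x‖ ≤ C := by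
  have h1 : Continuous (fderiv ℝ (bmp X)) :=
    ((bmp X).contDiff (n := 1)).continuous_fderiv (by norm_num)
  have h2 : HasCompactSupport (fderiv ℝ (bmp X)) := (bmp X).hasCompactSupport.fderiv ℝ
  obtain ⟨C, hC⟩ := h1.bounded_above_of_compact_support h2
  exact ⟨C, (norm_nonneg _).trans (hC 0), hC⟩

theorem fderiv_cut (n : ℕ) (x : X) :
    fderiv ℝ (cut n : X → ℝ) x = (n + 1 : ℝ)⁻¹ • fderiv ℝ (bmp X) ((n + 1 : ℝ)⁻¹ • x) := by
  have h1 : HasFDerivAt (fun x : X => (n + 1 : ℝ)⁻¹ • x)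
      ((n + 1 : ℝ)⁻¹ • ContinuousLinearMap.id ℝ X) x :=
    (hasFDerivAt_id x).const_smul _
  have h2 : HasFDerivAt (bmp X) (fderiv ℝ (bmp X) ((n + 1 : ℝ)⁻¹ • x)) ((n + 1 : ℝ)⁻¹ • x) :=
    (((bmp X).contDiff (n := 1)).differentiable (by norm_num) _).hasFDerivAt
  have h3 := h2.comp x h1
  have h4 : HasFDerivAt (cut n : X → ℝ) _ x := h3
  rw [h4.fderiv]
  ext v
  simp

theorem fderiv_cut_zero (n : ℕ) (x : X) (hx : 2 * (n + 1) < ‖x‖) :
    fderiv ℝ (cut n : X → ℝ) x = 0 := by
  have h : (cut n : X → ℝ) =ᶠ[𝓝 x] fun _ => 0 := by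
    have h1 : ∀ᶠ y in 𝓝 x, 2 * (n + 1 : ℝ) < ‖y‖ :=
      (continuous_norm.tendsto x).eventually (lt_mem_nhds hx)
    filter_upwards [h1] with y hy using cut_eq_zero n y hy.le
  rw [h.fderiv_eq]
  simp

theorem fderiv_cut_eventually (x : X) :
    ∀ᶠ n : ℕ in atTop, fderiv ℝ (cut n : X → ℝ) x = 0 := by
  obtain ⟨N, hN⟩ := exists_nat_gt ‖x‖
  filter_upwards [eventually_ge_atTop N] with n hn
  have h : (cut n : X → ℝ) =ᶠ[𝓝 x] fun _ => 1 := by
    have h1 : ‖x‖ < (n : ℝ) + 1 := by
      have : (N : ℝ) ≤ n := by exact_mod_cast hn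
      linarith
    have h2 : ∀ᶠ y in 𝓝 x, ‖y‖ < (n : ℝ) + 1 := continuousAt_id.norm.eventually_lt_const h1
    filter_upwards [h2] with y hy using cut_eq_one n y hy.le
  rw [h.fderiv_eq]
  simp

/-- **The integral of a divergence vanishes.** -/
theorem integral_div_eq_zero {J : Type*} (s : Finset J) (f : J → X → W) (e : J → X)
    (hf : ∀ j ∈ s, ContDiff ℝ 1 (f j))
    (hI : ∀ j ∈ s, Integrable (fun x => (1 + ‖x‖)⁻¹ * ‖f j x‖) μ)
    (hD : Integrable (fun x => ∑ j ∈ s, fderiv ℝ (f j) x (e j)) μ) :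
    ∫ x, ∑ j ∈ s, fderiv ℝ (f j) x (e j) ∂μ = 0 := by
  obtain ⟨C, hC0, hC⟩ := bmp_fderiv_bound (X := X)
  have hcont : ∀ n : ℕ, Continuous (cut n : X → ℝ) := fun n => (cut_contDiff n).continuous
  -- the integrals with the cut-off converge to the integral
  have h1 : Tendsto (fun n : ℕ => ∫ x, cut n x • ∑ j ∈ s, fderiv ℝ (f j) x (e j) ∂μ) atTop
      (𝓝 (∫ x, ∑ j ∈ s, fderiv ℝ (f j) x (e j) ∂μ)) := by
    apply tendsto_integral_of_dominated_convergence
      (fun x => ‖∑ j ∈ s, fderiv ℝ (f j) x (e j)‖)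
    · intro n
      exact (hcont n).aestronglyMeasurable.smul hD.1
    · exact hD.norm
    · intro n
      filter_upwards with x
      rw [norm_smul, Real.norm_of_nonneg (cut_nonneg n x)]
      exact mul_le_of_le_one_left (norm_nonneg _) (cut_le_one n x)
    · filter_upwards with x
      apply tendsto_const_nhds.congr'
      obtain ⟨N, hN⟩ := exists_nat_gt ‖x‖
      filter_upwards [eventually_ge_atTop N] with n hn
      have : (N : ℝ) ≤ n := by exact_mod_cast hn
      rw [cut_eq_one n x (by linarith), one_smul]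
  -- and to zero
  have h2 : ∀ n : ℕ, ∫ x, cut n x • ∑ j ∈ s, fderiv ℝ (f j) x (e j) ∂μ =
      - ∑ j ∈ s, ∫ x, fderiv ℝ (cut n : X → ℝ) x (e j) • f j x ∂μ := by
    intro n
    have hint1 : ∀ j ∈ s, Integrable (fun x => cut n x • fderiv ℝ (f j) x (e j)) μ := by
      intro j hj
      apply Continuous.integrable_of_hasCompactSupport
      · exact (hcont n).smul (((hf j hj).continuous_fderiv (by norm_num)).clm_apply
          continuous_const)
      · exact (cut_hasCompactSupport n).smul_right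
    have hint2 : ∀ j ∈ s, Integrable (fun x => fderiv ℝ (cut n : X → ℝ) x (e j) • f j x) μ := by
      intro j hj
      apply Continuous.integrable_of_hasCompactSupport
      · exact (((cut_contDiff n).continuous_fderiv (by norm_num)).clm_apply
          continuous_const).smul (hf j hj).continuous
      · apply HasCompactSupport.smul_right
        exact ((cut_hasCompactSupport n).fderiv ℝ).comp_left (g := fun L => L (e j)) (by simp)
    have hint3 : ∀ j ∈ s, Integrable (fun x => cut n x • f j x) μ := by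
      intro j hj
      apply Continuous.integrable_of_hasCompactSupport
      · exact (hcont n).smul (hf j hj).continuous
      · exact (cut_hasCompactSupport n).smul_right
    simp_rw [Finset.smul_sum]
    rw [integral_finsetSum s hint1, ← Finset.sum_neg_distrib]
    apply Finset.sum_congr rfl
    intro j hj
    exact integral_smul_fderiv_eq_neg_fderiv_smul_of_integrable (hint2 j hj) (hint1 j hj)
      (hint3 j hj) (fun x _ => (cut_contDiff n).differentiable (by norm_num) x)
      (fun x _ => (hf j hj).differentiable (by norm_num) x)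
  have h3 : Tendsto (fun n : ℕ => - ∑ j ∈ s, ∫ x, fderiv ℝ (cut n : X → ℝ) x (e j) • f j x ∂μ)
      atTop (𝓝 (- ∑ j ∈ s, ∫ _ : X, (0 : W) ∂μ)) := by
    apply Tendsto.neg
    apply tendsto_finsetSum
    intro j hj
    apply tendsto_integral_of_dominated_convergence
      (fun x => 3 * C * ‖e j‖ * ((1 + ‖x‖)⁻¹ * ‖f j x‖))
    · intro n
      exact ((((cut_contDiff n).continuous_fderiv (by norm_num)).clm_apply
          continuous_const).smul (hf j hj).continuous).aestronglyMeasurable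
    · exact (hI j hj).const_mul _
    · intro n
      filter_upwards with x
      by_cases hx : 2 * (n + 1) < ‖x‖
      · rw [fderiv_cut_zero n x hx]
        simp only [zero_apply, zero_smul, norm_zero]
        positivity
      · rw [not_lt] at hx
        have hn : (0 : ℝ) < n + 1 := by positivity
        have h4 : ‖fderiv ℝ (cut n : X → ℝ) x (e j)‖ ≤ 3 * C * ‖e j‖ * (1 + ‖x‖)⁻¹ := by
          have h5 : (n + 1 : ℝ)⁻¹ ≤ 3 * (1 + ‖x‖)⁻¹ := by
            have h6 : (0 : ℝ) < 1 + ‖x‖ := by positivity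
            rw [← div_eq_mul_inv, inv_eq_one_div, div_le_div_iff₀ hn h6]
            linarith
          calc ‖fderiv ℝ (cut n : X → ℝ) x (e j)‖
              ≤ ‖fderiv ℝ (cut n : X → ℝ) x‖ * ‖e j‖ := ContinuousLinearMap.le_opNorm _ _
            _ ≤ ((n + 1 : ℝ)⁻¹ * C) * ‖e j‖ := by
                rw [fderiv_cut, norm_smul, norm_inv, Real.norm_of_nonneg hn.le]
                gcongr
                exact hC _
            _ ≤ ((3 * (1 + ‖x‖)⁻¹) * C) * ‖e j‖ := by gcongr
            _ = 3 * C * ‖e j‖ * (1 + ‖x‖)⁻¹ := by ring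
        rw [norm_smul]
        calc ‖fderiv ℝ (cut n : X → ℝ) x (e j)‖ * ‖f j x‖
            ≤ (3 * C * ‖e j‖ * (1 + ‖x‖)⁻¹) * ‖f j x‖ := by gcongr
          _ = 3 * C * ‖e j‖ * ((1 + ‖x‖)⁻¹ * ‖f j x‖) := by ring
    · filter_upwards with x
      apply tendsto_const_nhds.congr'
      filter_upwards [fderiv_cut_eventually x] with n hn
      rw [hn]
      simp
  have h4 : Tendsto (fun n : ℕ => ∫ x, cut n x • ∑ j ∈ s, fderiv ℝ (f j) x (e j) ∂μ) atTop
      (𝓝 (- ∑ j ∈ s, ∫ _ : X, (0 : W) ∂μ)) := by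
    simp_rw [h2]
    exact h3
  have h5 := tendsto_nhds_unique h1 h4
  simpa using h5

end Vale.Agent.P273.H811
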