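import Vale.Agent.P273.H811.Bulk

/-!
P273, `BulkLinear` from the local half of `BulkSmooth`.
-/

open MeasureTheory Set Topology Filter

noncomputable section

namespace Vale.Agent.P273.H811

open H95
open H681 (C6)

theorem sum_lin {ι M : Type*} {s : Finset ι} [AddCommMonoid M] [Module ℝ M] {f g h : ι → M}
    (c : ℝ) (hf : ∀ i, f i = g i + c • h i) :
    ∑ i ∈ s, f i = (∑ i ∈ s, g i) + c • ∑ i ∈ s, h i := by
  rw [Finset.smul_sum, ← Finset.sum_add_distrib]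
  exact Finset.sum_congr rfl fun i _ => hf i

theorem wedge_lin {p q : ℕ} {E H : Type*} [NormedAddCommGroup E] [NormedSpace ℝ E]
    [NormedAddCommGroup H] [NormedSpace ℝ H] (F : E [⋀^Fin p]→L[ℝ] ℝ)
    (T T' : ContinuousMultilinearMap ℝ (fun _ : Fin q => H) ℝ) (c : ℝ) (θ : Fin q → E →L[ℝ] H) :
    H973.wedgeT F (T + c • T') θ = H973.wedgeT F T θ + c • H973.wedgeT F T' θ := by
  rw [H973.wedgeT_addT, H973.wedgeT_smulT]

/-- One sheet of `Wf`. -/
def wf1 (X : H95.Ext) (Θ : Gauge) (T : MT) (S : L → Bool) (e : H95.E) (s : L → Bool) :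
    Alt (16 + 14) H95.E :=
  H973.wedgeT (GR X.G S e (sheet S e s)) T fun i => Θ.th i S e (sheet S e s)

theorem wf_eq (X : H95.Ext) (Θ : Gauge) (T : MT) (S : L → Bool) (e : H95.E) :
    Wf X Θ T S e = ∑ s : L → Bool, wf1 X Θ T S e s := rfl

theorem wf1_lin (X : H95.Ext) (Θ : Gauge) (T T' : MT) (c : ℝ) (S : L → Bool) (e : H95.E)
    (s : L → Bool) :
    wf1 X Θ (T + c • T') S e s = wf1 X Θ T S e s + c • wf1 X Θ T' S e s :=
  wedge_lin _ T T' c _

theorem wf_lin (X : H95.Ext) (Θ : Gauge) (T T' : MT) (c : ℝ) (S : L → Bool) (e : H95.E) :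
    Wf X Θ (T + c • T') S e = Wf X Θ T S e + c • Wf X Θ T' S e := by
  rw [wf_eq, wf_eq, wf_eq]
  exact sum_lin c fun s => wf1_lin X Θ T T' c S e s

theorem int_lin {X M : Type*} [MeasurableSpace X] [NormedAddCommGroup M] [NormedSpace ℝ M]
    {μ : Measure X} {f g h : X → M} (hg : Integrable g μ) (hh : Integrable h μ) (c : ℝ)
    (hf : ∀ i, f i = g i + c • h i) : ∫ x, f x ∂μ = ∫ x, g x ∂μ + c • ∫ x, h x ∂μ := by
  have h1 : ∫ x, f x ∂μ = ∫ x, g x + (c • h) x ∂μ :=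
    integral_congr_ae (Filter.Eventually.of_forall hf)
  rw [h1, integral_add hg (hh.smul c)]
  congr 1
  exact integral_smul c h

theorem phiF_lin {X : H95.Ext} {Θ : Gauge} {T T' : MT} (h1 : WfSmooth X Θ T) (h2 : WfChg X Θ T)
    (h1' : WfSmooth X Θ T') (h2' : WfChg X Θ T') (c : ℝ) {b : C6} (hb : b ∈ H681.XX) :
    PhiF X Θ (T + c • T') b = PhiF X Θ T b + c • PhiF X Θ T' b := by
  refine int_lin (integrable_Wg h1 h2 hb) (integrable_Wg h1' h2' hb) c fun x => ?_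
  have h := congrArg (fixA (k := 2) vb) (wf_lin X Θ T T' c (fun _ => false) (b, x))
  exact h.trans ((map_add (fixA (k := 2) vb) _ _).trans
    (congrArg _ (map_smul (fixA (k := 2) vb) c _)))

/-- **`BulkLinear` from the local half of `BulkSmooth`.** -/
theorem bulkLinear_of
    (h1 : ∀ (X : H95.Ext) (Θ : Gauge) (T : MT), SymT T → WfSmooth X Θ T)
    (h2 : ∀ (X : H95.Ext) (Θ : Gauge) (T : MT), SymT T → WfChg X Θ T) : BulkLinear :=
  fun X Θ T T' hT hT' c _ hb => phiF_lin (h1 X Θ T hT) (h2 X Θ T hT) (h1 X Θ T' hT')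
    (h2 X Θ T' hT') c hb

end Vale.Agent.P273.H811
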