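import Vale.Agent.P273.H887.WfChg
import Vale.Agent.P273.H811.Lin
import Vale.Agent.P273.H852.RegionDefs

/-!
P273, the integrand on one sheet: continuity on the curves, bound at infinity, integrability.
-/

open MeasureTheory Set Topology Filter

noncomputable section

namespace Vale.Agent.P273.H811

open H95 Vale.P273.H887
open H681 (C6)

/-- The pairs (roots and marks, sheets). -/
def crv (S : L → Bool) : Set (H95.E × (L → ℂ)) :=
  {q | q.1.1 ∈ H681.XX ∧ q.2 ∈ shSet (cf S q.1)}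

theorem branch_unique {S : L → Bool} {e : H95.E} {y : H95.E → L → ℂ} (hy : ContinuousAt y e)
    (hys : ∀ e, y e ∈ shSet (cf S e)) (hc : ∀ j, cf S e j ≠ 0) :
    ∀ᶠ q : H95.E × (L → ℂ) in 𝓝 (e, y e), q.2 ∈ shSet (cf S q.1) → q.2 = y q.1 := by
  have h1 : ∀ᶠ q : H95.E × (L → ℂ) in 𝓝 (e, y e), ∀ j, q.2 j + y q.1 j ≠ 0 := by
    rw [eventually_all]
    intro j
    have h2 : ContinuousAt (fun q : H95.E × (L → ℂ) => q.2 j + y q.1 j) (e, y e) := by
      refine ContinuousAt.add ?_ ?_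
      · exact ((continuous_apply j).comp continuous_snd).continuousAt
      · have h3 : ContinuousAt (fun q : H95.E × (L → ℂ) => y q.1) (e, y e) :=
          ContinuousAt.comp (g := y) (f := Prod.fst) hy continuous_fst.continuousAt
        exact (continuous_apply j).continuousAt.comp h3
    apply h2.eventually_ne
    have h4 := ne_zero_of_mem (hys e) hc j
    intro h5
    apply h4
    have h6 : (2 : ℂ) * y e j = 0 := by rw [two_mul]; exact h5
    simpa using h6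
  filter_upwards [h1] with q hq hm
  funext j
  have h2 : (q.2 j - y q.1 j) * (q.2 j + y q.1 j) = 0 := by
    have e1 := hm j
    have e2 := hys q.1 j
    linear_combination e1 - e2
  rcases mul_eq_zero.1 h2 with h3 | h3
  · exact sub_eq_zero.1 h3
  · exact absurd h3 (hq j)

/-- **(C0)** -/
theorem continuousOn_Qf (X : H95.Ext) (Θ : Gauge) {T : MT} (hT : SymT T) (S : L → Bool) :
    ContinuousOn (fun q : H95.E × (L → ℂ) => Qf X Θ T S q.1 q.2) (crv S) := by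
  rintro ⟨e, v⟩ ⟨h0, hv⟩
  by_cases h : ∃ j, cf S e j = 0
  · obtain ⟨j, hj⟩ := h
    obtain ⟨k, hk⟩ := cf_eq_zero hj
    have h1 := Qf_root X Θ T h0 hk
    have h3 : ∀ᶠ q : H95.E × (L → ℂ) in 𝓝 (e, v), ∀ w ∈ shSet (cf S q.1),
        Qf X Θ T S q.1 w = 0 :=
      (continuous_fst.continuousAt (x := ((e, v) : H95.E × (L → ℂ)))).eventually h1
    have h2 : (fun q : H95.E × (L → ℂ) => Qf X Θ T S q.1 q.2) =ᶠ[𝓝[crv S] (e, v)]
        fun _ => 0 := by
      filter_upwards [mem_nhdsWithin_of_mem_nhds h3, self_mem_nhdsWithin] with q hq hm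
      exact hq _ hm.2
    refine continuousWithinAt_const.congr_of_eventuallyEq h2 ?_
    exact h3.self_of_nhds v hv
  · push Not at h
    obtain ⟨y, hya, hy0, hys⟩ := exists_branch (analyticAt_cf S e) h hv
    have h1 := (Qf_branch X Θ hT h0 hya.continuousAt hys h).1.continuousAt
    subst hy0
    have h2 := branch_unique hya.continuousAt hys h
    have h3 : (fun q : H95.E × (L → ℂ) => Qf X Θ T S q.1 q.2) =ᶠ[𝓝[crv S] (e, y e)]
        fun q => Qf X Θ T S q.1 (y q.1) := by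
      filter_upwards [mem_nhdsWithin_of_mem_nhds h2, self_mem_nhdsWithin] with q hq hm
      rw [← hq hm.2]
    refine ContinuousWithinAt.congr_of_eventuallyEq ?_ h3 rfl
    exact (ContinuousAt.comp (g := fun e => Qf X Θ T S e (y e)) (f := Prod.fst)
      (x := ((e, y e) : H95.E × (L → ℂ))) h1 continuous_fst.continuousAt).continuousWithinAt

theorem continuous_cf (S : L → Bool) : Continuous (cf S) := by
  rw [continuous_iff_continuousAt]
  exact fun e => (analyticAt_cf S e).continuousAt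

/-- The compact set. -/
def kset (S : L → Bool) (b : C6) (ρ : ℝ) : Set (H95.E × (L → ℂ)) :=
  {q | q.1.1 ∈ Metric.closedBall b ρ ∧ q.1.2 ∈ Metric.closedBall 0 1 ∧ q.2 ∈ shSet (cf S q.1)}

theorem isCompact_kset (S : L → Bool) (b : C6) (ρ : ℝ) : IsCompact (kset S b ρ) := by
  have hK : IsCompact (Metric.closedBall b ρ ×ˢ Metric.closedBall (0 : L → ℂ) 1) :=
    (isCompact_closedBall b ρ).prod (isCompact_closedBall 0 1)
  obtain ⟨M, hM⟩ := hK.exists_bound_of_continuousOn (continuous_cf S).continuousOn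
  have hK2 : IsCompact ((Metric.closedBall b ρ ×ˢ Metric.closedBall (0 : L → ℂ) 1) ×ˢ
      Metric.closedBall (0 : L → ℂ) (|M| + 1)) := hK.prod (isCompact_closedBall 0 _)
  refine hK2.of_isClosed_subset ?_ ?_
  · have e1 : kset S b ρ = (fun q : H95.E × (L → ℂ) => q.1.1) ⁻¹' Metric.closedBall b ρ ∩
        ((fun q : H95.E × (L → ℂ) => q.1.2) ⁻¹' Metric.closedBall 0 1 ∩
        {q | (fun j => q.2 j ^ 2) = cf S q.1}) := by
      ext q
      simp only [kset, shSet, Set.mem_ofPred_eq, Set.mem_inter_iff, Set.mem_preimage,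
        funext_iff]
    rw [e1]
    refine (Metric.isClosed_closedBall.preimage (continuous_fst.comp continuous_fst)).inter
      ((Metric.isClosed_closedBall.preimage (continuous_snd.comp continuous_fst)).inter ?_)
    refine isClosed_eq ?_ ((continuous_cf S).comp continuous_fst)
    exact continuous_pi fun j => ((continuous_apply j).comp continuous_snd).pow 2
  · rintro ⟨e, v⟩ ⟨h1, h2, h3⟩
    refine ⟨⟨h1, h2⟩, ?_⟩
    rw [mem_closedBall_zero_iff, pi_norm_le_iff_of_nonneg (by positivity)]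
    intro j
    have h4 := hM e ⟨h1, h2⟩
    have h5 : ‖v j‖ ^ 2 ≤ |M| := by
      rw [← norm_pow]
      have h6 : v j ^ 2 = cf S e j := h3 j
      rw [h6]
      exact ((norm_le_pi_norm (cf S e) j).trans h4).trans (le_abs_self M)
    nlinarith [norm_nonneg (v j), abs_nonneg M]

/-- **(C1)** -/
theorem Qf_bound (X : H95.Ext) (Θ : Gauge) {T : MT} (hT : SymT T) {b₀ : C6}
    (hb₀ : b₀ ∈ H681.XX) : ∃ C : ℝ, 0 ≤ C ∧ ∀ᶠ b in 𝓝 b₀, ∀ (S : L → Bool) (x y : L → ℂ),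
      ‖x‖ ≤ 1 → y ∈ shSet (cf S (b, x)) → ‖Qf X Θ T S (b, x) y‖ ≤ C := by
  obtain ⟨ρ, hρ, hball⟩ := Metric.nhds_basis_closedBall.mem_iff.1
    (H681.isOpen_XX.mem_nhds hb₀)
  have h1 : ∀ S : L → Bool, ∃ C, ∀ q ∈ kset S b₀ ρ, ‖Qf X Θ T S q.1 q.2‖ ≤ C := fun S =>
    (isCompact_kset S b₀ ρ).exists_bound_of_continuousOn
      ((continuousOn_Qf X Θ hT S).mono fun q hq => ⟨hball hq.1, hq.2.2⟩)
  choose C hC using h1
  obtain ⟨M, hM⟩ : ∃ M, ∀ S, C S ≤ M := by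
    obtain ⟨M, hM⟩ := (Set.finite_range C).bddAbove
    exact ⟨M, fun S => hM ⟨S, rfl⟩⟩
  refine ⟨|M|, abs_nonneg M, ?_⟩
  filter_upwards [Metric.closedBall_mem_nhds b₀ hρ] with b hb S x y hx hy
  exact ((hC S ((b, x), y) ⟨hb, mem_closedBall_zero_iff.2 hx, hy⟩).trans (hM S)).trans
    (le_abs_self M)


theorem fderiv_flip_chS (S : Finset L) (b : C6) (x : L → ℂ) (hx : ∀ j ∈ S, x j ≠ 0) :
    fderiv ℝ (H95.flip (fun _ : L => false) (chS S)) (b, x) = Dinv S x := by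
  rw [flip_chS]
  exact (hasFDerivAt_Inv S b x hx).fderiv

section General

variable {E W ι : Type*} [NormedAddCommGroup E] [NormedSpace ℝ E]
  [NormedAddCommGroup W] [NormedSpace ℝ W] [Fintype ι] [DecidableEq ι] {n k : ℕ}

/-- The bound at infinity on one sheet, general form. -/
theorem far_bound {V : Set E} {C : ℝ} (hC : 0 ≤ C)
    (P0 : E × (ι → ℂ) → (ι → ℂ) → Prop)
    (Q0 : E × (ι → ℂ) → (ι → ℂ) → (E × (ι → ℂ)) [⋀^Fin (n + k)]→L[ℝ] W)
    (Q : Finset ι → E × (ι → ℂ) → (ι → ℂ) → (E × (ι → ℂ)) [⋀^Fin (n + k)]→L[ℝ] W)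
    (h : ∀ b ∈ V, ∀ (S : Finset ι) (x y : ι → ℂ), (∀ j ∈ S, x j ≠ 0) → ‖inv S x‖ ≤ 1 →
      P0 (b, x) y → ∃ y' : ι → ℂ, ‖Q S (b, inv S x) y'‖ ≤ C ∧
        Q0 (b, x) y = (Q S (b, inv S x) y').compContinuousLinearMap (Dinv S x))
    {p : Fin n → ι} (hp : ∀ j, (Finset.univ.filter fun i => p i = j).card = 2) (c : Fin n → ℂ) :
    ∀ b ∈ V, ∀ x y, P0 (b, x) y → ∀ v : Fin k → E,
      ‖Q0 (b, x) y (vec (ver p c) v)‖ ≤ C * (∏ i, 4 * ‖c i‖) * wt x * ∏ i, ‖v i‖ := by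
  intro b hb x y hy v
  obtain ⟨y', h1, h2⟩ := h b hb (far x) x y (fun j hj => far_ne x j hj) (norm_inv_far x) hy
  have h3 : ∏ l : Fin (n + k), ‖Dinv (far x) x (vec (ver p c) v l)‖ ≤
      (∏ i, 4 * ‖c i‖) * wt x * ∏ i, ‖v i‖ := by
    rw [← prod_bd hp c x v]
    exact Finset.prod_le_prod (fun _ _ => norm_nonneg _) fun l _ => le_bd p c x v l
  rw [h2]
  calc ‖(Q (far x) (b, inv (far x) x) y').compContinuousLinearMap (Dinv (far x) x)
        (vec (ver p c) v)‖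
      ≤ C * ∏ l : Fin (n + k), ‖Dinv (far x) x (vec (ver p c) v l)‖ :=
        (ContinuousAlternatingMap.le_opNorm (Q (far x) (b, inv (far x) x) y')
          (fun i => Dinv (far x) x (vec (ver p c) v i))).trans
          (mul_le_mul_of_nonneg_right h1 (Finset.prod_nonneg fun _ _ => norm_nonneg _))
    _ ≤ C * ((∏ i, 4 * ‖c i‖) * wt x * ∏ i, ‖v i‖) := mul_le_mul_of_nonneg_left h3 hC
    _ = C * (∏ i, 4 * ‖c i‖) * wt x * ∏ i, ‖v i‖ := by ring

end General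

/-- `Qf` with degree `28 + 2`. -/
def Qg (X : H95.Ext) (Θ : Gauge) (T : MT) (S : L → Bool) (e : C6 × (L → ℂ)) (v : L → ℂ) :
    (C6 × (L → ℂ)) [⋀^Fin (28 + 2)]→L[ℝ] ℝ := Qf X Θ T S e v

theorem Qg_far (X : H95.Ext) (Θ : Gauge) {T : MT} (hT : SymT T) {b : C6} (hb : b ∈ H681.XX)
    (S : Finset L) (x y : L → ℂ) (hx : ∀ j ∈ S, x j ≠ 0) (hy : y ∈ shSet (cf (fun _ : L => false) (b, x))) :
    flipv (fun _ : L => false) (chS S) x y ∈ shSet (cf (chS S) (b, inv S x)) ∧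
      Qg X Θ T (fun _ : L => false) (b, x) y = (Qg X Θ T (chS S) (b, inv S x)
        (flipv (fun _ : L => false) (chS S) x y)).compContinuousLinearMap (Dinv S x) := by
  have hz : ∀ j, (fun _ : L => false) j ≠ chS S j → ((b, x) : H95.E).2 j ≠ 0 := by
    intro j hj
    apply hx j
    by_contra h
    exact hj (by simp [chS, h])
  have h2 := Qf_chg X Θ hT (S := fun _ => false) (S' := chS S) (e := (b, x)) hb hz hy
  have h3 := mem_flip hz hy
  rw [fderiv_flip_chS S b x hx] at h2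
  have h4 : H95.flip (fun _ : L => false) (chS S) (b, x) = (b, inv S x) := by rw [flip_chS]
  rw [h4] at h2 h3
  exact ⟨h3, h2⟩

/-- **(C2)** -/
theorem sheet_bound (X : H95.Ext) (Θ : Gauge) {T : MT} (hT : SymT T) {b₀ : C6}
    (hb₀ : b₀ ∈ H681.XX) : ∃ C : ℝ, 0 ≤ C ∧ ∀ᶠ b in 𝓝 b₀, ∀ x y : L → ℂ,
      y ∈ shSet (cf (fun _ : L => false) (b, x)) → ∀ v : Fin 2 → C6,
        ‖Qg X Θ T (fun _ : L => false) (b, x) y (vec vb v)‖ ≤ C * wt x * ∏ i, ‖v i‖ := by
  obtain ⟨C, hC, h1⟩ := Qf_bound X Θ hT hb₀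
  refine ⟨C * ∏ i, 4 * ‖cvb i‖, mul_nonneg hC (Finset.prod_nonneg fun _ _ => by positivity), ?_⟩
  have h2 := far_bound (V := {b | b ∈ H681.XX ∧ ∀ (S : L → Bool) (x y : L → ℂ),
      ‖x‖ ≤ 1 → y ∈ shSet (cf S (b, x)) → ‖Qf X Θ T S (b, x) y‖ ≤ C}) hC
    (fun e y => y ∈ shSet (cf (fun _ : L => false) e)) (Qg X Θ T (fun _ : L => false)) (fun S => Qg X Θ T (chS S))
    (fun b hb S x y hx hn hy => ⟨_, hb.2 _ _ _ hn (Qg_far X Θ hT hb.1 S x y hx hy).1,
      (Qg_far X Θ hT hb.1 S x y hx hy).2⟩) card_pvb cvb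
  have h3 : ∀ᶠ b in 𝓝 b₀, b ∈ {b : C6 | b ∈ H681.XX ∧ ∀ (S : L → Bool) (x y : L → ℂ),
      ‖x‖ ≤ 1 → y ∈ shSet (cf S (b, x)) → ‖Qf X Θ T S (b, x) y‖ ≤ C} := by
    filter_upwards [h1, H681.isOpen_XX.mem_nhds hb₀] with b hb hbX
    exact ⟨hbX, hb⟩
  rw [vb_eq]
  refine h3.mono fun b hb x y hy v => ?_
  have h4 := h2 b hb x y hy v
  exact h4

end Vale.Agent.P273.H811
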