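import Vale.Agent.P273.H811.Sheet1
import Vale.Agent.P273.H811.BulkThm
import Vale.Agent.P273.H708.MultiNeck

/-!
P273, the integrand on one sheet is integrable on the product of the curves, and `PhiF` is its
integral.
-/

open MeasureTheory Set Topology Filter

noncomputable section

namespace Vale.Agent.P273.H811

open H95 Vale.P273.H887
open H681 (C6)
open H852 (sheetMeas)

theorem continuousOn_Qg (X : H95.Ext) (Θ : Gauge) {T : MT} (hT : SymT T) (S : L → Bool) :
    ContinuousOn (fun q : (C6 × (L → ℂ)) × (L → ℂ) => Qg X Θ T S q.1 q.2) (crv S) :=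
  continuousOn_Qf X Θ hT S

theorem Wf_eq_sum (X : H95.Ext) (Θ : Gauge) (T : MT) {b : C6}
    (hb : b ∈ H681.XX) {s : ℂ → ℂ} (hsq : ∀ x, s x ^ 2 = sx (rts b) x) (x : L → ℂ) :
    Wf X Θ T (fun _ : L => false) (b, x) = ∑ ε : L → Bool, Qf X Θ T (fun _ : L => false) (b, x) fun j => sgB (ε j) * s (x j) := by
  have hr : (fun j => s (x j)) ∈ shSet (cf (fun _ : L => false) (b, x)) := fun j => hsq (x j)
  rw [Wf_eq X Θ T (fun _ : L => false) (e := (b, x)) hb]
  by_cases h : ∃ j, cf (fun _ : L => false) (b, x) j = 0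
  · obtain ⟨j, hj⟩ := h
    obtain ⟨k, hk⟩ := cf_eq_zero hj
    have h1 := (Qf_root X Θ T (S := fun _ => false) (e₀ := (b, x)) hb (j := j) (k := k) hk).self_of_nhds
    rw [shSum_eq_zero h1]
    symm
    refine Finset.sum_eq_zero fun ε _ => h1 _ fun j => ?_
    rw [mul_pow, sgB_sq, one_mul]
    exact hsq (x j)
  · push Not at h
    exact shSum_eq hr (ne_zero_of_mem hr h) _

theorem Wf_eq_sum' (X : H95.Ext) (Θ : Gauge) (T : MT) {b : C6}
    (hb : b ∈ H681.XX) {s : ℂ → ℂ} (hsq : ∀ x, s x ^ 2 = sx (rts b) x) (x : L → ℂ) :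
    Wg X Θ T (fun _ : L => false) (b, x) = ∑ ε : L → Bool, Qg X Θ T (fun _ : L => false) (b, x) fun j => sgB (ε j) * s (x j) :=
  Wf_eq_sum X Θ T hb hsq x

attribute [local irreducible] H95.vb H811.vec H95.Wf Qf Qg

/-- The two sheets. -/
def lift (s : ℂ → ℂ) (ε : Bool) (x : ℂ) : ℂ × ℂ := (x, sgB ε * s x)

theorem measurable_lift {s : ℂ → ℂ} (hs : Measurable s) (ε : Bool) : Measurable (lift s ε) :=
  measurable_id.prodMk (hs.const_mul _)

theorem sheetMeas_eq (s : ℂ → ℂ) (μ : Measure ℂ) :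
    sheetMeas s μ = ∑ ε : Bool, μ.map (lift s ε) := by
  rw [Fintype.sum_bool]
  have h1 : lift s true = fun x => (x, s x) := by
    funext x
    simp [lift, sgB]
  have h2 : lift s false = fun x => (x, - s x) := by
    funext x
    simp [lift, sgB]
  rw [h1, h2]
  rfl

theorem sigmaFinite_lift {s : ℂ → ℂ} (hs : Measurable s) (μ : Measure ℂ) [SigmaFinite μ]
    (ε : Bool) : SigmaFinite (μ.map (lift s ε)) := by
  have h1 : (μ.map (lift s ε)).map Prod.fst = μ := by
    rw [Measure.map_map measurable_fst (measurable_lift hs ε)]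
    exact Measure.map_id
  refine SigmaFinite.of_map _ measurable_fst.aemeasurable ?_
  rw [h1]
  infer_instance

theorem sigmaFinite_sheetMeas {s : ℂ → ℂ} (hs : Measurable s) (μ : Measure ℂ) [SigmaFinite μ] :
    SigmaFinite (sheetMeas s μ) := by
  rw [sheetMeas_eq, ← Measure.sum_fintype]
  have : ∀ ε, SigmaFinite (μ.map (lift s ε)) := fun ε => sigmaFinite_lift hs μ ε
  infer_instance

/-- The choice of a sheet for every mark. -/
def lifts {ι : Type*} (s : ℂ → ℂ) (ε : ι → Bool) (x : ι → ℂ) (j : ι) : ℂ × ℂ :=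
  lift s (ε j) (x j)

theorem measurable_lifts {ι : Type*} {s : ℂ → ℂ} (hs : Measurable s) (ε : ι → Bool) :
    Measurable (lifts s ε) :=
  measurable_pi_lambda _ fun j => (measurable_lift hs (ε j)).comp (measurable_pi_apply j)

theorem pi_sheetMeas {ι : Type*} [Fintype ι] [DecidableEq ι] {s : ℂ → ℂ} (hs : Measurable s) :
    Measure.pi (fun _ : ι => sheetMeas s volume) =
      ∑ ε : ι → Bool, (volume : Measure (ι → ℂ)).map (lifts s ε) := by
  have h0 : ∀ ε, SigmaFinite ((volume : Measure ℂ).map (lift s ε)) :=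
    fun ε => sigmaFinite_lift hs volume ε
  have h1 : (fun _ : ι => sheetMeas s volume) =
      fun _ : ι => ∑ ε : Bool, (volume : Measure ℂ).map (lift s ε) := by
    funext _
    exact sheetMeas_eq s volume
  rw [h1, H708.pi_sum_eq (fun (_ : ι) (ε : Bool) => (volume : Measure ℂ).map (lift s ε))]
  refine Finset.sum_congr rfl fun ε _ => ?_
  rw [volume_pi]
  exact (Measure.pi_map_pi fun i => (measurable_lift hs (ε i)).aemeasurable).symm

/-- The integrand on the product of the curves. -/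
def shf (X : H95.Ext) (Θ : Gauge) (T : MT) (b : C6) (v : Fin 2 → C6) (P : L → ℂ × ℂ) : ℝ :=
  Qg X Θ T (fun _ : L => false) (b, fun j => (P j).1) (fun j => (P j).2) (vec vb v)

theorem shf_apply (X : H95.Ext) (Θ : Gauge) (T : MT) (b : C6) (v : Fin 2 → C6)
    (P : L → ℂ × ℂ) : shf X Θ T b v P =
      Qg X Θ T (fun _ : L => false) (b, fun j => (P j).1) (fun j => (P j).2) (vec vb v) := by
  delta shf
  rfl

/-- The product of the curves. -/
def crvs (b : C6) : Set (L → ℂ × ℂ) := {P | ∀ j, (P j).2 ^ 2 = sx (rts b) (P j).1}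

theorem continuous_sx (a : C6) : Continuous (sx a) := by
  unfold sx
  fun_prop

theorem isClosed_crvs (b : C6) : IsClosed (crvs b) := by
  have h1 : crvs b = ⋂ j, {P | (P j).2 ^ 2 = sx (rts b) (P j).1} := by
    ext P
    simp [crvs]
  rw [h1]
  refine isClosed_iInter fun j => isClosed_eq ?_ ?_
  · exact (continuous_snd.comp (continuous_apply j)).pow 2
  · exact (continuous_sx _).comp (continuous_fst.comp (continuous_apply j))

/-- From points of the curves to marks and sheets. -/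
def spl (b : C6) (P : L → ℂ × ℂ) : (C6 × (L → ℂ)) × (L → ℂ) :=
  ((b, fun j => (P j).1), fun j => (P j).2)

theorem continuous_spl (b : C6) : Continuous (spl b) := by
  unfold spl
  fun_prop

theorem continuousOn_shf (X : H95.Ext) (Θ : Gauge) {T : MT} (hT : SymT T) {b : C6}
    (hb : b ∈ H681.XX) (v : Fin 2 → C6) : ContinuousOn (shf X Θ T b v) (crvs b) := by
  have h1 : ContinuousOn ((fun q : (C6 × (L → ℂ)) × (L → ℂ) => Qg X Θ T (fun _ : L => false) q.1 q.2) ∘ spl b)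
      (crvs b) :=
    (continuousOn_Qg X Θ hT (fun _ : L => false)).comp (continuous_spl b).continuousOn fun P hP => ⟨hb, hP⟩
  have h2 : Continuous fun g : (C6 × (L → ℂ)) [⋀^Fin (28 + 2)]→L[ℝ] ℝ => g (vec vb v) :=
    (ContinuousAlternatingMap.apply ℝ (C6 × (L → ℂ)) ℝ (vec vb v)).continuous
  exact h2.comp_continuousOn h1

theorem lifts_mem {b : C6} {s : ℂ → ℂ} (hsq : ∀ x, s x ^ 2 = sx (rts b) x) (ε : L → Bool)
    (x : L → ℂ) : lifts s ε x ∈ crvs b := by
  intro j
  change (sgB (ε j) * s (x j)) ^ 2 = sx (rts b) (x j)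
  rw [mul_pow, sgB_sq, one_mul, hsq]

theorem aesm_shf (X : H95.Ext) (Θ : Gauge) {T : MT} (hT : SymT T) {b : C6}
    (hb : b ∈ H681.XX) {s : ℂ → ℂ} (hs : Measurable s) (hsq : ∀ x, s x ^ 2 = sx (rts b) x)
    (v : Fin 2 → C6) (ε : L → Bool) :
    AEStronglyMeasurable (shf X Θ T b v) ((volume : Measure (L → ℂ)).map (lifts s ε)) := by
  have h1 := (continuousOn_shf X Θ hT hb v).aestronglyMeasurable
    (μ := (volume : Measure (L → ℂ)).map (lifts s ε)) (isClosed_crvs b).measurableSet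
  have h2 : ((volume : Measure (L → ℂ)).map (lifts s ε)).restrict (crvs b) =
      (volume : Measure (L → ℂ)).map (lifts s ε) := by
    rw [Measure.restrict_map (measurable_lifts hs ε) (isClosed_crvs b).measurableSet]
    have h3 : lifts s ε ⁻¹' crvs b = univ := by
      ext x
      simp [lifts_mem hsq ε x]
    rw [h3, Measure.restrict_univ]
  rwa [h2] at h1

theorem fst_lifts (s : ℂ → ℂ) (ε : L → Bool) (x : L → ℂ) : (fun j => (lifts s ε x j).1) = x := rfl

theorem sheet_bound_self (X : H95.Ext) (Θ : Gauge) {T : MT} (hT : SymT T) {b : C6}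
    (hb : b ∈ H681.XX) : ∃ C : ℝ, 0 ≤ C ∧ ∀ x y : L → ℂ,
      y ∈ shSet (cf (fun _ : L => false) (b, x)) → ∀ v : Fin 2 → C6,
        ‖Qg X Θ T (fun _ : L => false) (b, x) y (vec vb v)‖ ≤ C * wt x * ∏ i, ‖v i‖ := by
  obtain ⟨C, hC, h1⟩ := sheet_bound X Θ hT hb
  exact ⟨C, hC, h1.self_of_nhds⟩

theorem norm_shf_le (X : H95.Ext) (Θ : Gauge) {T : MT} {b : C6}
    {C : ℝ} (h : ∀ x y : L → ℂ,
      y ∈ shSet (cf (fun _ : L => false) (b, x)) → ∀ v : Fin 2 → C6,
        ‖Qg X Θ T (fun _ : L => false) (b, x) y (vec vb v)‖ ≤ C * wt x * ∏ i, ‖v i‖)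
    (P : L → ℂ × ℂ) (hP : P ∈ crvs b) (v : Fin 2 → C6) :
    ‖shf X Θ T b v P‖ ≤ C * wt (fun j => (P j).1) * ∏ i, ‖v i‖ := by
  have h4 := h (fun j => (P j).1) (fun j => (P j).2) hP v
  rw [shf_apply]
  exact h4

/-- **(C2')** the bound on the product of the curves, locally uniform in `b`. -/
theorem shf_bound (X : H95.Ext) (Θ : Gauge) {T : MT} (hT : SymT T) {b₀ : C6}
    (hb : b₀ ∈ H681.XX) : ∃ C : ℝ, 0 ≤ C ∧ ∀ᶠ b in 𝓝 b₀, ∀ P ∈ crvs b, ∀ v : Fin 2 → C6,
        ‖shf X Θ T b v P‖ ≤ C * wt (fun j => (P j).1) * ∏ i, ‖v i‖ := by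
  obtain ⟨C, hC, h1⟩ := sheet_bound X Θ hT hb
  refine ⟨C, hC, h1.mono fun b h P hP v => norm_shf_le X Θ h P hP v⟩

theorem int_shf_lifts (X : H95.Ext) (Θ : Gauge) {T : MT} (hT : SymT T) {b : C6}
    (hb : b ∈ H681.XX) {s : ℂ → ℂ} (hs : Measurable s) (hsq : ∀ x, s x ^ 2 = sx (rts b) x)
    (v : Fin 2 → C6) (ε : L → Bool) :
    Integrable (fun x => shf X Θ T b v (lifts s ε x)) := by
  obtain ⟨C, hC, h1⟩ := sheet_bound_self X Θ hT hb
  have h3 : Integrable (fun x : L → ℂ => C * wt x * ∏ i, ‖v i‖) :=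
    (integrable_wt.const_mul C).mul_const _
  have h5 : AEStronglyMeasurable (fun x => shf X Θ T b v (lifts s ε x)) volume :=
    (aesm_shf X Θ hT hb hs hsq v ε).comp_measurable (measurable_lifts hs ε)
  refine h3.mono' h5 (Eventually.of_forall fun x => ?_)
  have h4 := norm_shf_le X Θ h1 (lifts s ε x) (lifts_mem hsq ε x) v
  rw [fst_lifts] at h4
  exact h4

/-- **(C3)** -/
theorem integrable_sheet (X : H95.Ext) (Θ : Gauge) {T : MT} (hT : SymT T) {b : C6}
    (hb : b ∈ H681.XX) {s : ℂ → ℂ} (hs : Measurable s) (hsq : ∀ x, s x ^ 2 = sx (rts b) x)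
    (v : Fin 2 → C6) :
    Integrable (shf X Θ T b v) (Measure.pi fun _ : L => sheetMeas s volume) := by
  rw [pi_sheetMeas hs, integrable_finsetSum_measure]
  intro ε _
  rw [integrable_map_measure (aesm_shf X Θ hT hb hs hsq v ε) (measurable_lifts hs ε).aemeasurable]
  exact int_shf_lifts X Θ hT hb hs hsq v ε

theorem Wg_eq_sum (X : H95.Ext) (Θ : Gauge) (T : MT) {b : C6}
    (hb : b ∈ H681.XX) {s : ℂ → ℂ} (hsq : ∀ x, s x ^ 2 = sx (rts b) x) (x : L → ℂ) :
    Wg X Θ T (fun _ : L => false) (b, x) = ∑ ε : L → Bool, Qg X Θ T (fun _ : L => false) (b, x) fun j => sgB (ε j) * s (x j) :=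
  Wf_eq_sum' X Θ T hb hsq x

theorem fib_eq {E X W : Type*} [NormedAddCommGroup E] [NormedSpace ℝ E] [NormedAddCommGroup X]
    [NormedSpace ℝ X] [MeasurableSpace X] [NormedAddCommGroup W] [NormedSpace ℝ W] {n k : ℕ}
    (μ : Measure X) (e : Fin n → X) (G : E × X → (E × X) [⋀^Fin (n + k)]→L[ℝ] W) (b : E) :
    fib μ e G b = ∫ x, fixA e (G (b, x)) ∂μ := rfl

theorem apply_int {Y M : Type*} [MeasurableSpace Y] [NormedAddCommGroup M] [NormedSpace ℝ M]
    {n : ℕ} {μ : Measure Y} {f : Y → M [⋀^Fin n]→L[ℝ] ℝ} (hf : Integrable f μ) (v : Fin n → M) :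
    (∫ x, f x ∂μ) v = ∫ x, f x v ∂μ :=
  ((ContinuousAlternatingMap.apply ℝ M ℝ v).integral_comp_comm hf).symm

theorem sum_apply_gen {M ι : Type*} [NormedAddCommGroup M] [NormedSpace ℝ M]
    {n : ℕ} (s : Finset ι) (f : ι → M [⋀^Fin n]→L[ℝ] ℝ) (v : Fin n → M) :
    (∑ i ∈ s, f i) v = ∑ i ∈ s, f i v := by
  rw [ContinuousAlternatingMap.sum_apply]

/-- The fibre integral as an integral over the product of the curves, general form. -/
theorem fib_sheets {E ι : Type*} [NormedAddCommGroup E] [NormedSpace ℝ E] [Fintype ι]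
    [DecidableEq ι] {n k : ℕ} (e : Fin n → ι → ℂ) (b : E)
    (G : E × (ι → ℂ) → (E × (ι → ℂ)) [⋀^Fin (n + k)]→L[ℝ] ℝ)
    (Q : E × (ι → ℂ) → (ι → ℂ) → (E × (ι → ℂ)) [⋀^Fin (n + k)]→L[ℝ] ℝ)
    {s : ℂ → ℂ} (hs : Measurable s)
    (hG : ∀ x, G (b, x) = ∑ ε : ι → Bool, Q (b, x) (fun j => sgB (ε j) * s (x j)))
    (hint : Integrable (fun x => fixA (k := k) e (G (b, x)))) (v : Fin k → E)
    (q : (ι → ℂ × ℂ) → ℝ)
    (hq : ∀ P, q P = Q (b, fun j => (P j).1) (fun j => (P j).2) (vec e v))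
    (ham : ∀ ε : ι → Bool, AEStronglyMeasurable q ((volume : Measure (ι → ℂ)).map (lifts s ε)))
    (hi : ∀ ε : ι → Bool, Integrable (fun x => q (lifts s ε x))) :
    ∫ P, q P ∂(Measure.pi fun _ : ι => sheetMeas s volume) = fib volume e G b v := by
  have h1 : ∫ P, q P ∂(Measure.pi fun _ : ι => sheetMeas s volume) =
      ∑ ε : ι → Bool, ∫ x, q (lifts s ε x) := by
    rw [pi_sheetMeas hs, integral_finsetSum_measure]
    · exact Finset.sum_congr rfl fun ε _ => integral_map (measurable_lifts hs ε).aemeasurable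
        (ham ε)
    · intro ε _
      rw [integrable_map_measure (ham ε) (measurable_lifts hs ε).aemeasurable]
      exact hi ε
  rw [h1, ← integral_finsetSum _ fun ε _ => hi ε, fib_eq, apply_int hint]
  refine integral_congr_ae (Eventually.of_forall fun x => ?_)
  change ∑ ε : ι → Bool, q (lifts s ε x) = fixA (k := k) e (G (b, x)) v
  rw [fixA_apply, hG, sum_apply_gen]
  refine Finset.sum_congr rfl fun ε _ => ?_
  rw [hq]
  rfl

/-- **(C4)** -/
theorem integral_sheet (X : H95.Ext) (Θ : Gauge) {T : MT} (hT : SymT T) {b : C6}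
    (hb : b ∈ H681.XX) {s : ℂ → ℂ} (hs : Measurable s) (hsq : ∀ x, s x ^ 2 = sx (rts b) x)
    (v : Fin 2 → C6) :
    ∫ P, shf X Θ T b v P ∂(Measure.pi fun _ : L => sheetMeas s volume) = PhiF X Θ T b v := by
  have h1 := fib_sheets vb b (Wg X Θ T (fun _ : L => false)) (Qg X Θ T (fun _ : L => false)) hs (Wg_eq_sum X Θ T hb hsq)
    (integrable_Wg (wfSmooth X Θ T hT) (wfChg X Θ T hT) hb) v (shf X Θ T b v)
    (shf_apply X Θ T b v) (aesm_shf X Θ hT hb hs hsq v) (int_shf_lifts X Θ hT hb hs hsq v)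
  rw [h1, phiF_eq]

end Vale.Agent.P273.H811
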